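import Mathlib
import Vale.Agent.P245.Sub.Smooth

/-!
The Gaussian channel `y = x + t^(1/2) z` attached to a probability measure, and the observation
that an event of the output seldom depends on the input, when the input concentrates at a smaller
scale than the noise.
-/

open MeasureTheory Filter Set
open scoped RealInnerProductSpace Topology ENNReal
open Vale.Agent.P245.Sub

namespace Vale.Agent.P245.LSI

variable {n : ℕ}

/-- Two-set concentration at scale `K`. -/
def Conc (μ : Measure (Euc n)) (K : ℝ) : Prop :=
  ∀ A B : Set (Euc n), MeasurableSet A → MeasurableSet B → ∀ r : ℝ, 0 ≤ r →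
    (∀ x ∈ A, ∀ y ∈ B, r ≤ ‖x - y‖) → μ.real A * μ.real B ≤ 3 * Real.exp (-(r ^ 2 / K))

/-- The output of the channel, integrated against `F`. -/
noncomputable def chT (μ : Measure (Euc n)) (τ : ℝ) (F : Euc n → ℝ) (y : Euc n) : ℝ :=
  ∫ x, F x * gker n τ (x - y) ∂μ

/-- The probability of an output event given the input. -/
noncomputable def chG (τ : ℝ) (S : Set (Euc n)) (x : Euc n) : ℝ :=
  ∫ y in S, gker n τ (x - y)

variable {μ : Measure (Euc n)} [IsProbabilityMeasure μ] {τ : ℝ} (hτ : 0 < τ)
include hτ

omit hτ in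
lemma continuous_kerSub (y : Euc n) : Continuous fun x => gker n τ (x - y) :=
  (contDiff_gker τ).continuous.comp (continuous_id.sub continuous_const)

lemma integrable_gker : Integrable (gker n τ) := by
  refine ⟨(contDiff_gker τ).continuous.aestronglyMeasurable,
    (hasFiniteIntegral_iff_ofReal (Eventually.of_forall fun z => (gker_pos hτ z).le)).2 ?_⟩
  have h := lintegral_gker (n := n) hτ (k := fun _ => 1) measurable_const
  simp only [mul_one, lintegral_one] at h
  have := gam_exp_sq (n := n) (c := 0) le_rfl (by norm_num)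
  simp only [zero_mul, Real.exp_zero, ENNReal.ofReal_one, lintegral_one] at this
  rw [h]
  exact this.trans_lt ENNReal.ofReal_lt_top

lemma integral_gker : ∫ z, gker n τ z = 1 := by
  have hg : IsProbabilityMeasure (gam n) := by
    unfold gam; exact Measure.isProbabilityMeasure_map (measurable_toLp' n).aemeasurable
  have h := lintegral_gker (n := n) hτ (k := fun _ => 1) measurable_const
  simp only [mul_one, lintegral_one, measure_univ] at h
  rw [integral_eq_lintegral_of_nonneg_ae (Eventually.of_forall fun z => (gker_pos hτ z).le)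
    (contDiff_gker τ).continuous.aestronglyMeasurable, h, ENNReal.toReal_one]

lemma integral_gker_sub (x : Euc n) : ∫ y, gker n τ (x - y) = 1 := by
  rw [integral_sub_left_eq_self (fun z => gker n τ z) volume x]
  exact integral_gker hτ

lemma integrable_gker_sub (x : Euc n) : Integrable fun y => gker n τ (x - y) :=
  (integrable_gker hτ).comp_sub_left x

lemma integrable_ker {F : Euc n → ℝ} {B : ℝ} (hF : Measurable F) (hB : ∀ x, |F x| ≤ B)
    (y : Euc n) : Integrable (fun x => F x * gker n τ (x - y)) μ := by
  refine Integrable.of_bound (hF.mul (continuous_kerSub y).measurable).aestronglyMeasurable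
    (B * ((Real.sqrt (2 * Real.pi))⁻¹ ^ n * Real.sqrt τ ^ n)) (Eventually.of_forall fun x => ?_)
  rw [Real.norm_eq_abs, abs_mul, abs_of_pos (gker_pos hτ _)]
  exact mul_le_mul (hB x) (gker_le hτ _) (gker_pos hτ _).le ((abs_nonneg _).trans (hB x))

lemma integrable_joint {F : Euc n → ℝ} {B : ℝ} (hF : Measurable F) (hB : ∀ x, |F x| ≤ B) :
    Integrable (fun p : Euc n × Euc n => F p.1 * gker n τ (p.1 - p.2)) (μ.prod volume) := by
  have hm : Measurable fun p : Euc n × Euc n => F p.1 * gker n τ (p.1 - p.2) :=
    (hF.comp measurable_fst).mul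
      ((contDiff_gker τ).continuous.comp (continuous_fst.sub continuous_snd)).measurable
  rw [integrable_prod_iff hm.aestronglyMeasurable]
  refine ⟨Eventually.of_forall fun x => (integrable_gker_sub hτ x).const_mul (F x), ?_⟩
  have e : ∀ x, ∫ y, ‖F x * gker n τ (x - y)‖ = |F x| := fun x => by
    simp only [Real.norm_eq_abs, abs_mul, abs_of_pos (gker_pos hτ _)]
    rw [integral_const_mul, integral_gker_sub hτ, mul_one]
  simp only [e]
  exact Integrable.of_bound hF.abs.aestronglyMeasurable B
    (Eventually.of_forall fun x => by rw [Real.norm_eq_abs, abs_abs]; exact hB x)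

lemma integrable_chT {F : Euc n → ℝ} {B : ℝ} (hF : Measurable F) (hB : ∀ x, |F x| ≤ B) :
    Integrable (chT μ τ F) :=
  (integrable_joint (μ := μ) hτ hF hB).integral_prod_right

lemma integral_chT {F : Euc n → ℝ} {B : ℝ} (hF : Measurable F) (hB : ∀ x, |F x| ≤ B) :
    ∫ y, chT μ τ F y = ∫ x, F x ∂μ := by
  simp only [chT]
  rw [← integral_integral_swap (f := fun x y => F x * gker n τ (x - y))
    (integrable_joint (μ := μ) hτ hF hB)]
  simp only [integral_const_mul, integral_gker_sub hτ, mul_one]

lemma setIntegral_chT {F : Euc n → ℝ} {B : ℝ} (hF : Measurable F) (hB : ∀ x, |F x| ≤ B)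
    {S : Set (Euc n)} (hS : MeasurableSet S) :
    ∫ y in S, chT μ τ F y = ∫ x, F x * chG τ S x ∂μ := by
  have hj : Integrable (fun p : Euc n × Euc n => F p.1 * gker n τ (p.1 - p.2))
      (μ.prod (volume.restrict S)) := by
    have := (integrable_joint (μ := μ) hτ hF hB).restrict (s := Set.univ ×ˢ S)
    rwa [← Measure.prod_restrict, Measure.restrict_univ] at this
  simp only [chT, chG, ← integral_const_mul]
  exact (integral_integral_swap (f := fun x y => F x * gker n τ (x - y)) hj).symm

lemma chT_nonneg {F : Euc n → ℝ} (hF : ∀ x, 0 ≤ F x) (y : Euc n) : 0 ≤ chT μ τ F y :=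
  integral_nonneg fun x => mul_nonneg (hF x) (gker_pos hτ _).le

lemma chT_one_pos (y : Euc n) : 0 < chT μ τ (fun _ => 1) y := by
  simp only [chT, one_mul]
  rw [integral_pos_iff_support_of_nonneg (fun x => (gker_pos hτ _).le)
    (by
      have hi := integrable_ker (μ := μ) hτ (F := fun _ => (1 : ℝ)) (B := 1) measurable_const
        (fun _ => by simp) y
      simpa only [one_mul] using hi)]
  have e : Function.support (fun x => gker n τ (x - y)) = Set.univ :=
    Set.eq_univ_of_forall fun x => (gker_pos hτ _).ne'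
  rw [e, measure_univ]
  exact one_pos

omit hτ in
lemma measurable_chT {F : Euc n → ℝ} (hF : Measurable F) : Measurable (chT μ τ F) := by
  have hm : StronglyMeasurable fun p : Euc n × Euc n => F p.2 * gker n τ (p.2 - p.1) :=
    ((hF.comp measurable_snd).mul
      ((contDiff_gker τ).continuous.comp (continuous_snd.sub continuous_fst)).measurable
      ).stronglyMeasurable
  exact hm.integral_prod_right'.measurable

omit hτ in
lemma measurable_chG {S : Set (Euc n)} : Measurable (chG τ S) := by
  have hm : StronglyMeasurable fun p : Euc n × Euc n => gker n τ (p.1 - p.2) :=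
    ((contDiff_gker τ).continuous.comp (continuous_fst.sub continuous_snd)
      ).stronglyMeasurable
  exact hm.integral_prod_right'.measurable

lemma chG_mem (S : Set (Euc n)) (x : Euc n) : 0 ≤ chG τ S x ∧ chG τ S x ≤ 1 := by
  refine ⟨integral_nonneg fun y => (gker_pos hτ _).le, ?_⟩
  rw [← integral_gker_sub hτ x]
  exact setIntegral_le_integral (integrable_gker_sub hτ x)
    (Eventually.of_forall fun y => (gker_pos hτ _).le)

/-- A Gaussian shift costs a square and an exponential of the shift squared. -/
lemma chG_shift (S : Set (Euc n)) (x x' : Euc n) :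
    chG τ S x ^ 2 ≤ chG τ S x' * Real.exp (τ * ‖x - x'‖ ^ 2) := by
  obtain ⟨hG0, -⟩ := chG_mem hτ S x
  rcases hG0.eq_or_lt with h | h
  · rw [← h, zero_pow two_ne_zero]
    exact mul_nonneg (chG_mem hτ S x').1 (Real.exp_pos _).le
  set G := chG τ S x with hG
  set E := Real.exp (τ * ‖x - x'‖ ^ 2) with hE
  have hE0 : 0 < E := Real.exp_pos _
  set z := x + (x - x') with hz
  have hpt : ∀ y, 2 * (E / G) * gker n τ (x - y)
      ≤ (E / G) ^ 2 * gker n τ (x' - y) + E * gker n τ (z - y) := by
    intro y
    have hs : gker n τ (x - y) ^ 2 = E * gker n τ (z - y) * gker n τ (x' - y) := by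
      simp only [gker, hE]
      have e : ∀ a b : ℝ, (a * Real.exp b) ^ 2 = a ^ 2 * Real.exp (b + b) := fun a b => by
        rw [mul_pow, sq (Real.exp b), ← Real.exp_add]
      rw [e, show ∀ c p q r : ℝ, Real.exp r * (c * Real.exp p) * (c * Real.exp q)
        = c ^ 2 * (Real.exp r * Real.exp p * Real.exp q) from fun c p q r => by ring,
        ← Real.exp_add, ← Real.exp_add]
      congr 2
      have h1 := parallelogram_law_with_norm ℝ (x - y) (x - x')
      rw [show z - y = x - y + (x - x') by rw [hz]; abel,
        show x' - y = x - y - (x - x') by abel]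
      linear_combination (τ / 2) * h1
    have hp := gker_pos hτ (x - y)
    have hp' := gker_pos hτ (x' - y)
    have h2 : 0 ≤ ((E / G) * gker n τ (x' - y) - gker n τ (x - y)) ^ 2 := sq_nonneg _
    refine le_of_mul_le_mul_right ?_ hp'
    linarith [h2, hs, show ((E / G) * gker n τ (x' - y) - gker n τ (x - y)) ^ 2
      = (E / G) ^ 2 * gker n τ (x' - y) * gker n τ (x' - y)
        - 2 * (E / G) * gker n τ (x - y) * gker n τ (x' - y) + gker n τ (x - y) ^ 2 by ring]
  have hi := integral_mono (μ := volume.restrict S)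
    ((integrable_gker_sub hτ x).const_mul _).integrableOn
    (((integrable_gker_sub hτ x').const_mul _).add
      ((integrable_gker_sub hτ z).const_mul E)).integrableOn hpt
  simp only [Pi.add_apply] at hi
  rw [integral_add ((integrable_gker_sub hτ x').const_mul _).integrableOn
    ((integrable_gker_sub hτ z).const_mul E).integrableOn, integral_const_mul,
    integral_const_mul, integral_const_mul] at hi
  change 2 * (E / G) * G ≤ (E / G) ^ 2 * chG τ S x' + E * chG τ S z at hi
  have hz1 := mul_le_mul_of_nonneg_left (chG_mem hτ S z).2 hE0.le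
  rw [mul_assoc, div_mul_cancel₀ _ h.ne'] at hi
  have h3 : E ≤ (E / G) ^ 2 * chG τ S x' := by linarith
  rw [div_pow, div_mul_eq_mul_div, le_div_iff₀ (by positivity)] at h3
  refine le_of_mul_le_mul_left ?_ hE0
  linarith

/-- If the output event is not too likely, few inputs make it likely. -/
lemma level_small {K : ℝ} (hconc : Conc μ K) {S : Set (Euc n)} {δ η r : ℝ} (hr : 0 < r)
    (hη : 0 ≤ η)
    (hint : ∫ x, chG τ S x ∂μ
      < η ^ 2 * Real.exp (-(τ * r ^ 2)) * (1 - 3 * Real.exp (-(r ^ 2 / K)) / δ)) (hδ : 0 < δ) :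
    μ.real {x | η < chG τ S x} ≤ δ := by
  by_contra hp
  rw [not_le] at hp
  set A := {x | η < chG τ S x} with hA
  have hAm : MeasurableSet A := measurableSet_lt measurable_const measurable_chG
  have hne : A.Nonempty := by
    by_contra hne
    rw [not_nonempty_iff_eq_empty] at hne
    rw [hne, measureReal_empty] at hp
    linarith
  set B := {x | r ≤ Metric.infDist x A} with hB
  have hBm : MeasurableSet B :=
    measurableSet_le measurable_const (Metric.continuous_infDist_pt A).measurable
  have hab := hconc A B hAm hBm r hr.le fun x hx y hy => by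
    have hy' : r ≤ Metric.infDist y A := hy
    rw [norm_sub_rev, ← dist_eq_norm]
    exact hy'.trans (Metric.infDist_le_dist_of_mem hx)
  have hBle : μ.real B ≤ 3 * Real.exp (-(r ^ 2 / K)) / δ := by
    rw [le_div_iff₀ hδ]
    calc μ.real B * δ ≤ μ.real B * μ.real A :=
          mul_le_mul_of_nonneg_left hp.le measureReal_nonneg
      _ ≤ _ := by rw [mul_comm]; exact hab
  have hlow : ∀ x ∈ Bᶜ, η ^ 2 * Real.exp (-(τ * r ^ 2)) ≤ chG τ S x := by
    intro x hx
    have hx' : ¬r ≤ Metric.infDist x A := hx
    obtain ⟨a, ha, hd⟩ := (Metric.infDist_lt_iff hne).1 (not_le.1 hx')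
    rw [dist_eq_norm, norm_sub_rev] at hd
    have h := chG_shift hτ S a x
    have h1 : η ^ 2 ≤ chG τ S a ^ 2 := pow_le_pow_left₀ hη (show η < chG τ S a from ha).le 2
    rw [Real.exp_neg, ← div_eq_mul_inv, div_le_iff₀ (Real.exp_pos _)]
    refine (h1.trans h).trans (mul_le_mul_of_nonneg_left (Real.exp_le_exp.2 ?_) (chG_mem hτ S x).1)
    gcongr
  have hGi : Integrable (chG τ S) μ :=
    Integrable.of_bound measurable_chG.aestronglyMeasurable 1 (Eventually.of_forall fun x => by
      rw [Real.norm_eq_abs, abs_of_nonneg (chG_mem hτ S x).1]; exact (chG_mem hτ S x).2)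
  have h2 : η ^ 2 * Real.exp (-(τ * r ^ 2)) * μ.real Bᶜ ≤ ∫ x, chG τ S x ∂μ :=
    le_trans (setIntegral_ge_of_const_le_real hBm.compl (measure_ne_top _ _) hlow hGi.integrableOn)
      (setIntegral_le_integral hGi (Eventually.of_forall fun x => (chG_mem hτ S x).1))
  have h3 : 1 - 3 * Real.exp (-(r ^ 2 / K)) / δ ≤ μ.real Bᶜ := by
    rw [probReal_compl_eq_one_sub hBm]; linarith
  have h4 := mul_le_mul_of_nonneg_left h3
    (mul_nonneg (sq_nonneg η) (Real.exp_pos (-(τ * r ^ 2))).le)
  linarith

end Vale.Agent.P245.LSI
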