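import Mathlib
import Vale.Agent.P245.LSI.Channel

/-!
Defective entropy inequality and its tightening on small sets, from concentration and an entropy
inequality for the posterior measures of the channel.
-/

open MeasureTheory Filter Set
open scoped RealInnerProductSpace Topology ENNReal
open Vale.Agent.P245.Sub

namespace Vale.Agent.P245.LSI

variable {n : ℕ}

/-- The entropy inequality of all the posterior measures. -/
def Post (μ : Measure (Euc n)) (τ : ℝ) (F D : Euc n → ℝ) : Prop :=
  ∀ y, chT μ τ (fun x => F x * Real.log (F x)) y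
      - chT μ τ F y * Real.log (chT μ τ F y / chT μ τ (fun _ => 1) y) ≤ chT μ τ D y

/-- The level of a nonnegative function: `0` below `1`, `k + 1` on `[e^k, e^(k+1))`. -/
noncomputable def lvl (v : ℝ) : ℕ := if v < 1 then 0 else ⌊Real.log v⌋₊ + 1

lemma lvl_spec {v : ℝ} {k : ℕ} (h : lvl v = k + 1) :
    1 ≤ v ∧ (k : ℝ) ≤ Real.log v ∧ v ≤ Real.exp ((k : ℝ) + 1) := by
  unfold lvl at h
  by_cases hv : v < 1
  · rw [if_pos hv] at h; omega
  rw [if_neg hv] at h
  rw [not_lt] at hv
  have hk : ⌊Real.log v⌋₊ = k := by omega
  refine ⟨hv, ?_, ?_⟩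
  · rw [← hk]; exact Nat.floor_le (Real.log_nonneg hv)
  · have := Nat.lt_floor_add_one (Real.log v)
    rw [hk] at this
    calc v = Real.exp (Real.log v) := (Real.exp_log (by linarith)).symm
      _ ≤ _ := Real.exp_le_exp.2 this.le

lemma lvl_zero {v : ℝ} (h : lvl v = 0) : v < 1 := by
  unfold lvl at h
  by_contra hv
  rw [if_neg hv] at h
  omega

/-- The log-sum inequality with subprobability weights. -/
lemma logsum {ι : Type*} (s : Finset ι) (a p : ι → ℝ) {N : ℝ} (hN : 0 < N)
    (ha : ∀ i ∈ s, 0 ≤ a i) (hp : ∀ i ∈ s, 0 < p i) (hps : ∑ i ∈ s, p i ≤ 1) :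
    (∑ i ∈ s, a i) * Real.log ((∑ i ∈ s, a i) / N)
      ≤ ∑ i ∈ s, a i * Real.log (a i / (N * p i)) := by
  set A := ∑ i ∈ s, a i with hA
  have hA0 : 0 ≤ A := Finset.sum_nonneg ha
  have h : ∀ i ∈ s, a i * Real.log (A / N) ≤ a i * Real.log (a i / (N * p i)) + (A * p i - a i) := by
    intro i hi
    rcases (ha i hi).eq_or_lt with h0 | h0
    · rw [← h0]; simp; exact mul_nonneg hA0 (hp i hi).le
    have hApos : 0 < A := h0.trans_le (Finset.single_le_sum ha hi)
    have e : Real.log (A / N) = Real.log (a i / (N * p i)) + Real.log (A * p i / a i) := by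
      rw [← Real.log_mul (div_ne_zero h0.ne' (mul_pos hN (hp i hi)).ne')
        (div_ne_zero (mul_pos hApos (hp i hi)).ne' h0.ne')]
      congr 1
      have := (hp i hi).ne'
      field_simp
    have hl := Real.log_le_sub_one_of_pos (div_pos (mul_pos hApos (hp i hi)) h0)
    rw [e, mul_add]
    have := mul_le_mul_of_nonneg_left hl h0.le
    rw [mul_sub, mul_one, mul_div_cancel₀ _ h0.ne'] at this
    linarith
  have hs := Finset.sum_le_sum h
  rw [← Finset.sum_mul, Finset.sum_add_distrib, Finset.sum_sub_distrib, ← Finset.mul_sum, ← hA] at hs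
  nlinarith [mul_le_of_le_one_right hA0 hps]

lemma sum_weights (m : ℕ) :
    ∑ i ∈ Finset.range m, (1 : ℝ) / (((i : ℝ) + 1) * ((i : ℝ) + 2)) = 1 - 1 / ((m : ℝ) + 1) := by
  induction m with
  | zero => simp
  | succ m ih =>
    rw [Finset.sum_range_succ, ih]
    push_cast
    have h1 : ((m : ℝ) + 1) ≠ 0 := by positivity
    have h2 : ((m : ℝ) + 2) ≠ 0 := by positivity
    have h3 : ((m : ℝ) + 1 + 1) ≠ 0 := by positivity
    field_simp
    ring

lemma log_weight_le (i : ℕ) :
    Real.log (((i : ℝ) + 1) * ((i : ℝ) + 2)) ≤ (i : ℝ) / 16 + 6 := by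
  have h1 : Real.log ((i : ℝ) + 1) ≤ Real.log ((i : ℝ) + 2) :=
    Real.log_le_log (by positivity) (by linarith)
  have h2 := Real.log_le_sub_one_of_pos (show 0 < ((i : ℝ) + 2) / 32 by positivity)
  rw [Real.log_div (by positivity) (by norm_num)] at h2
  have h3 : Real.log 32 ≤ 5 * 0.7 := by
    rw [show (32 : ℝ) = 2 ^ (5 : ℕ) by norm_num, Real.log_pow]
    have := Real.log_two_lt_d9
    push_cast
    linarith
  rw [Real.log_mul (by positivity) (by positivity)]
  linarith

lemma small_exp : 3 * Real.exp (-6) ≤ 1 / 100 ∧ Real.exp (-3) ≤ 1 / 20 := by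
  have h := Real.exp_one_gt_d9
  have e : ∀ k : ℕ, Real.exp (-(k : ℝ)) = (Real.exp 1 ^ k)⁻¹ := fun k => by
    rw [Real.exp_neg, ← Real.exp_nat_mul, mul_one]
  constructor
  · rw [show (-6 : ℝ) = -((6 : ℕ) : ℝ) by norm_num, e, mul_inv_le_iff₀ (by positivity)]
    calc (3 : ℝ) ≤ 1 / 100 * 2.7 ^ 6 := by norm_num
      _ ≤ _ := by gcongr; linarith
  · rw [show (-3 : ℝ) = -((3 : ℕ) : ℝ) by norm_num, e, one_div]
    refine inv_anti₀ (by norm_num) ?_
    calc (20 : ℝ) ≤ 2.715 ^ 3 := by norm_num
      _ ≤ _ := by gcongr; linarith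

variable {μ : Measure (Euc n)} [IsProbabilityMeasure μ] {K : ℝ} (hK : 0 < K) (hconc : Conc μ K)
include hK hconc

/-- A rare high level is seldom guessed from the output. -/
lemma level_guess {S : Set (Euc n)} (hS : MeasurableSet S) {k : ℕ} (hk : 8 ≤ k)
    (hμS : μ.real S ≤ Real.exp (-(k : ℝ))) :
    μ.real {x | 1 / 4 < chG (1 / (60000 * K))
        {y | Real.exp (-(k : ℝ) / 2) * chT μ (1 / (60000 * K)) (fun _ => 1) y
          < chT μ (1 / (60000 * K)) (S.indicator fun _ => 1) y} x}
      ≤ Real.exp (-(2 * (k : ℝ))) := by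
  set τ := 1 / (60000 * K) with hτd
  have hτ : 0 < τ := by positivity
  set T := {y | Real.exp (-(k : ℝ) / 2) * chT μ τ (fun _ => 1) y
    < chT μ τ (S.indicator fun _ => 1) y} with hT
  have hSm : Measurable (S.indicator fun _ : Euc n => (1 : ℝ)) := measurable_const.indicator hS
  have hSb : ∀ x, |S.indicator (fun _ : Euc n => (1 : ℝ)) x| ≤ 1 := fun x => by
    by_cases hx : x ∈ S <;> simp [hx]
  have hTm : MeasurableSet T :=
    measurableSet_lt (measurable_const.mul (measurable_chT measurable_const)) (measurable_chT hSm)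
  have hk' : (8 : ℝ) ≤ k := by exact_mod_cast hk
  -- Markov
  have hG : ∫ x, chG τ T x ∂μ ≤ Real.exp (-(k : ℝ) / 2) := by
    have e := setIntegral_chT (μ := μ) hτ (F := fun _ => (1 : ℝ)) (B := 1) measurable_const
      (fun _ => by simp) hTm
    simp only [one_mul] at e
    rw [← e]
    have h1 : Real.exp (-(k : ℝ) / 2) * ∫ y in T, chT μ τ (fun _ => 1) y
        ≤ ∫ y, chT μ τ (S.indicator fun _ => 1) y := by
      rw [← integral_const_mul]
      refine le_trans (setIntegral_mono_on ((integrable_chT hτ (B := 1) measurable_const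
        fun _ => by simp).const_mul _).integrableOn
        (integrable_chT hτ hSm hSb).integrableOn hTm fun y hy => le_of_lt hy) ?_
      exact setIntegral_le_integral (integrable_chT hτ hSm hSb)
        (Eventually.of_forall fun y => chT_nonneg hτ (fun x => indicator_nonneg (fun _ _ => zero_le_one) x) y)
    rw [integral_chT hτ hSm hSb, integral_indicator hS, setIntegral_const, smul_eq_mul, mul_one] at h1
    have h2 : Real.exp (-(k : ℝ)) = Real.exp (-(k : ℝ) / 2) * Real.exp (-(k : ℝ) / 2) := by
      rw [← Real.exp_add]; ring_nf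
    exact le_of_mul_le_mul_left ((h1.trans hμS).trans (le_of_eq h2)) (Real.exp_pos _)
  refine level_small hτ hconc (r := Real.sqrt (K * (2 * k + 6))) (Real.sqrt_pos.2 (by positivity))
    (by norm_num) ?_ (Real.exp_pos _)
  rw [Real.sq_sqrt (by positivity)]
  have e1 : K * (2 * (k : ℝ) + 6) / K = 2 * k + 6 := by field_simp
  have e2 : τ * (K * (2 * (k : ℝ) + 6)) = (2 * k + 6) / 60000 := by rw [hτd]; field_simp
  rw [e1, e2]
  have e3 : 3 * Real.exp (-(2 * (k : ℝ) + 6)) / Real.exp (-(2 * (k : ℝ))) = 3 * Real.exp (-6) := by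
    rw [neg_add, Real.exp_add]; field_simp
  rw [e3]
  have e4 : Real.exp (-(k : ℝ) / 2) ≤ Real.exp (-((k : ℝ) / 8)) * (1 / 20) := by
    calc Real.exp (-(k : ℝ) / 2) = Real.exp (-((k : ℝ) / 8)) * Real.exp (-(3 * (k : ℝ) / 8)) := by
          rw [← Real.exp_add]; ring_nf
      _ ≤ _ := mul_le_mul_of_nonneg_left
          ((Real.exp_le_exp.2 (by linarith)).trans small_exp.2) (Real.exp_pos _).le
  have e5 : Real.exp (-((k : ℝ) / 8)) ≤ Real.exp (-((2 * k + 6) / 60000)) :=
    Real.exp_le_exp.2 (by linarith)
  have e6 := Real.exp_pos (-((k : ℝ) / 8))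
  have e7 : (1 / 4 : ℝ) ^ 2 * Real.exp (-((2 * k + 6) / 60000)) * (99 / 100)
      ≤ (1 / 4 : ℝ) ^ 2 * Real.exp (-((2 * k + 6) / 60000)) * (1 - 3 * Real.exp (-6)) :=
    mul_le_mul_of_nonneg_left (by linarith [small_exp.1]) (by positivity)
  linarith

/-- The defective entropy inequality. -/
theorem defective {F D : Euc n → ℝ} {M M' : ℝ} (hFm : Measurable F) (hF0 : ∀ x, 0 ≤ F x)
    (hFM : ∀ x, F x ≤ M) (hF1 : ∫ x, F x ∂μ = 1) (hDm : Measurable D) (hD0 : ∀ x, 0 ≤ D x)
    (hDM : ∀ x, D x ≤ M') (hpost : Post μ (1 / (60000 * K)) F D) :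
    ∫ x, F x * Real.log (F x) ∂μ ≤ 4 * (∫ x, D x ∂μ) + 60 := by
  set τ := 1 / (60000 * K) with hτd
  have hτ : 0 < τ := by positivity
  have hFabs : ∀ x, |F x| ≤ M := fun x => by rw [abs_of_nonneg (hF0 x)]; exact hFM x
  obtain ⟨ML, hML⟩ := (isCompact_Icc (a := (0 : ℝ)) (b := M)).exists_bound_of_continuousOn
    (Real.continuous_mul_log.continuousOn)
  have hLabs : ∀ x, |F x * Real.log (F x)| ≤ ML := fun x => hML (F x) ⟨hF0 x, hFM x⟩
  have hLm : Measurable fun x => F x * Real.log (F x) := hFm.mul (Real.measurable_log.comp hFm)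
  have iL : Integrable (fun x => F x * Real.log (F x)) μ :=
    Integrable.of_bound hLm.aestronglyMeasurable ML (Eventually.of_forall hLabs)
  have iF : Integrable F μ :=
    Integrable.of_bound hFm.aestronglyMeasurable M (Eventually.of_forall hFabs)
  set N := chT μ τ (fun _ => (1 : ℝ)) with hNd
  have hN : ∀ y, 0 < N y := chT_one_pos hτ
  have hone : ∀ _x : Euc n, |(1 : ℝ)| ≤ 1 := fun _ => by simp
  -- the pieces
  set m := ⌊Real.log (max M 1)⌋₊ + 2 with hm
  set E := fun i : ℕ => {x | lvl (F x) = i} with hE
  have hlm : Measurable fun x => lvl (F x) := by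
    refine (Measurable.ite (measurableSet_lt measurable_id measurable_const) measurable_const
      ((Real.measurable_log.nat_floor).add_const 1)).comp hFm
  have hEm : ∀ i, MeasurableSet (E i) := fun i => hlm (measurableSet_singleton i)
  have hrange : ∀ x, lvl (F x) < m := fun x => by
    unfold lvl
    split_ifs with hv
    · omega
    · have : ⌊Real.log (F x)⌋₊ ≤ ⌊Real.log (max M 1)⌋₊ :=
        Nat.floor_le_floor (Real.log_le_log (by linarith [not_lt.1 hv])
          ((hFM x).trans (le_max_left _ _)))
      omega
  set a := fun (i : ℕ) y => chT μ τ ((E i).indicator F) y with had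
  have hEFb : ∀ i x, |(E i).indicator F x| ≤ M := fun i x => by
    by_cases hx : x ∈ E i
    · rw [indicator_of_mem hx]; exact hFabs x
    · rw [indicator_of_notMem hx, abs_zero]; exact (abs_nonneg _).trans (hFabs x)
  have hEF0 : ∀ i x, 0 ≤ (E i).indicator F x := fun i x => indicator_nonneg (fun y _ => hF0 y) x
  have ha0 : ∀ i y, 0 ≤ a i y := fun i y => chT_nonneg hτ (hEF0 i) y
  have hpart : ∀ x, F x = ∑ i ∈ Finset.range m, (E i).indicator F x := fun x => by
    rw [Finset.sum_eq_single_of_mem (lvl (F x)) (Finset.mem_range.2 (hrange x))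
      (fun i _ hi => indicator_of_notMem (show x ∉ E i from fun h => hi (Eq.symm h)) _),
      indicator_of_mem (show x ∈ E (lvl (F x)) from rfl)]
  have hsum : ∀ y, chT μ τ F y = ∑ i ∈ Finset.range m, a i y := fun y => by
    simp only [had, chT]
    rw [← integral_finsetSum _ fun i _ => integrable_ker hτ (hFm.indicator (hEm i)) (hEFb i) y]
    refine integral_congr_ae (Eventually.of_forall fun x => ?_)
    simp only
    rw [hpart x, Finset.sum_mul]
  have hmass : ∀ i, ∫ y, a i y = ∫ x in E i, F x ∂μ := fun i => by
    rw [had, integral_chT hτ (hFm.indicator (hEm i)) (hEFb i), integral_indicator (hEm i)]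
  -- bad output events
  set T := fun k : ℕ => {y | Real.exp (-(k : ℝ) / 2) * N y
    < chT μ τ ((E (k + 1)).indicator fun _ => (1 : ℝ)) y} with hTd
  have hTm : ∀ k, MeasurableSet (T k) := fun k => measurableSet_lt
    (measurable_const.mul (measurable_chT measurable_const))
    (measurable_chT (measurable_const.indicator (hEm _)))
  set bnd := fun (i : ℕ) y => match i with
    | 0 => a 0 y * 1
    | k + 1 => a (k + 1) y * ((k : ℝ) / 2 + (k : ℝ) / 16 + 8)
        + (k : ℝ) / 2 * (T k).indicator (a (k + 1)) y with hbd
  have hterm : ∀ i y, a i y * Real.log (a i y / (N y * (1 / (((i : ℝ) + 1) * ((i : ℝ) + 2)))))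
      ≤ bnd i y := by
    intro i y
    have hb0 : 0 ≤ bnd i y := by
      cases i with
      | zero => simp only [hbd]; linarith [ha0 0 y]
      | succ k =>
        simp only [hbd]
        exact add_nonneg (mul_nonneg (ha0 _ y) (by positivity))
          (mul_nonneg (by positivity) (indicator_nonneg (fun z _ => ha0 _ z) y))
    rcases (ha0 i y).eq_or_lt with h | h
    · rw [← h, zero_mul]; exact hb0
    have hlog : Real.log (a i y / (N y * (1 / (((i : ℝ) + 1) * ((i : ℝ) + 2)))))
        = Real.log (a i y / N y) + Real.log (((i : ℝ) + 1) * ((i : ℝ) + 2)) := by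
      rw [← Real.log_mul (div_ne_zero h.ne' (hN y).ne') (by positivity)]
      congr 1
      have := (hN y).ne'
      field_simp
    rw [hlog]
    cases i with
    | zero =>
      simp only [hbd]
      refine mul_le_mul_of_nonneg_left ?_ h.le
      have h1 : a 0 y ≤ N y := by
        refine integral_mono (integrable_ker hτ (hFm.indicator (hEm 0)) (hEFb 0) y)
          (integrable_ker hτ measurable_const hone y) fun x => ?_
        refine mul_le_mul_of_nonneg_right ?_ (gker_pos hτ _).le
        by_cases hx : x ∈ E 0
        · rw [indicator_of_mem hx]; exact (lvl_zero hx).le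
        · rw [indicator_of_notMem hx]; exact zero_le_one
      have h2 : Real.log (a 0 y / N y) ≤ 0 :=
        Real.log_nonpos (div_nonneg h.le (hN y).le) ((div_le_one (hN y)).2 h1)
      have h3 : Real.log ((((0 : ℕ) : ℝ) + 1) * (((0 : ℕ) : ℝ) + 2)) ≤ 1 := by
        norm_num
        linarith [Real.log_two_lt_d9]
      exact (add_le_add h2 h3).trans (le_of_eq (zero_add _))
    | succ k =>
      simp only [hbd]
      set w := chT μ τ ((E (k + 1)).indicator fun _ => (1 : ℝ)) y with hw
      have h1 : a (k + 1) y ≤ Real.exp ((k : ℝ) + 1) * w := by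
        rw [hw, chT, ← integral_const_mul]
        refine integral_mono (integrable_ker hτ (hFm.indicator (hEm _)) (hEFb _) y) ?_ fun x => ?_
        · exact (integrable_ker hτ (B := 1) (measurable_const.indicator (hEm _))
            (fun x => by by_cases hx : x ∈ E (k + 1) <;> simp [hx]) y).const_mul _
        · by_cases hx : x ∈ E (k + 1)
          · rw [indicator_of_mem hx, indicator_of_mem hx, one_mul]
            exact mul_le_mul_of_nonneg_right (lvl_spec hx).2.2 (gker_pos hτ _).le
          · simp [indicator_of_notMem hx]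
      have hw0 : 0 < w := by
        by_contra hw0
        have := mul_nonpos_of_nonneg_of_nonpos (Real.exp_pos ((k : ℝ) + 1)).le (not_lt.1 hw0)
        linarith
      have hwN : w ≤ N y := by
        refine integral_mono ?_ (integrable_ker hτ measurable_const hone y) fun x => ?_
        · exact integrable_ker hτ (B := 1) (measurable_const.indicator (hEm _))
            (fun x => by by_cases hx : x ∈ E (k + 1) <;> simp [hx]) y
        · refine mul_le_mul_of_nonneg_right ?_ (gker_pos hτ _).le
          by_cases hx : x ∈ E (k + 1) <;> simp [hx]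
      have h2 : Real.log (a (k + 1) y / N y) ≤ (k : ℝ) + 1 + Real.log (w / N y) := by
        have h' : Real.log (a (k + 1) y / N y)
            ≤ Real.log (Real.exp ((k : ℝ) + 1) * (w / N y)) := by
          refine Real.log_le_log (div_pos h (hN y)) ?_
          rw [← mul_div_assoc]
          exact div_le_div_of_nonneg_right h1 (hN y).le
        rwa [Real.log_mul (Real.exp_ne_zero _) (div_pos hw0 (hN y)).ne', Real.log_exp] at h'
      have h3 := log_weight_le (k + 1)
      push_cast at h3 ⊢
      by_cases hy : y ∈ T k
      · rw [indicator_of_mem hy]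
        have h4 : Real.log (w / N y) ≤ 0 :=
          Real.log_nonpos (div_nonneg hw0.le (hN y).le) ((div_le_one (hN y)).2 hwN)
        have h5 : Real.log (a (k + 1) y / N y) + Real.log (((k : ℝ) + 1 + 1) * ((k : ℝ) + 1 + 2))
            ≤ ((k : ℝ) / 2 + (k : ℝ) / 16 + 8) + (k : ℝ) / 2 := by linarith
        have := mul_le_mul_of_nonneg_left h5 h.le
        linarith
      · rw [indicator_of_notMem hy, mul_zero, add_zero]
        have hy' : w ≤ Real.exp (-(k : ℝ) / 2) * N y := not_lt.1 hy
        have h4 : Real.log (w / N y) ≤ -(k : ℝ) / 2 := by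
          rw [Real.log_le_iff_le_exp (div_pos hw0 (hN y)), div_le_iff₀ (hN y)]
          exact hy'
        exact mul_le_mul_of_nonneg_left (by linarith) h.le
  have hpt : ∀ y, chT μ τ F y * Real.log (chT μ τ F y / N y)
      ≤ ∑ i ∈ Finset.range m, bnd i y := fun y => by
    rw [hsum y]
    refine (logsum (Finset.range m) (fun i => a i y) (fun i => 1 / (((i : ℝ) + 1) * ((i : ℝ) + 2)))
      (hN y) (fun i _ => ha0 i y) (fun i _ => by positivity) ?_).trans
      (Finset.sum_le_sum fun i _ => hterm i y)
    rw [sum_weights]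
    have : (0 : ℝ) < 1 / ((m : ℝ) + 1) := by positivity
    linarith
  have ia : ∀ i, Integrable (a i) := fun i => integrable_chT hτ (hFm.indicator (hEm i)) (hEFb i)
  have ib : ∀ i, Integrable (bnd i) := fun i => by
    cases i with
    | zero => exact (ia 0).mul_const 1
    | succ k => exact ((ia _).mul_const _).add (((ia _).indicator (hTm k)).const_mul _)
  set q := Real.exp (-(1 / 2 : ℝ)) with hq
  have hint : ∀ i, ∫ y, bnd i y
      ≤ (∫ x in E i, if 1 ≤ F x then 11 / 16 * (F x * Real.log (F x)) else 0 ∂μ)
        + 11 * (∫ x in E i, F x ∂μ) + (if i = 0 then 0 else Real.exp 1 * q ^ (i - 1)) := by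
    intro i
    cases i with
    | zero =>
      simp only [hbd, mul_one, if_true, add_zero]
      rw [hmass 0]
      have h1 : 0 ≤ ∫ x in E 0, F x ∂μ := integral_nonneg fun x => hF0 x
      have h2 : ∫ x in E 0, (if 1 ≤ F x then 11 / 16 * (F x * Real.log (F x)) else 0) ∂μ = 0 := by
        refine setIntegral_eq_zero_of_forall_eq_zero fun x hx => ?_
        rw [if_neg (not_le.2 (lvl_zero hx))]
      rw [h2]
      linarith
    | succ k =>
      simp only [hbd, Nat.succ_ne_zero, if_false, Nat.add_sub_cancel]
      rw [integral_add ((ia _).mul_const _) (((ia _).indicator (hTm k)).const_mul _),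
        integral_mul_const, integral_const_mul, integral_indicator (hTm k), hmass]
      set mk := ∫ x in E (k + 1), F x ∂μ with hmk
      have hmk0 : 0 ≤ mk := integral_nonneg fun x => hF0 x
      have hup : (k : ℝ) * mk ≤ ∫ x in E (k + 1), F x * Real.log (F x) ∂μ := by
        rw [hmk, ← integral_const_mul]
        refine setIntegral_mono_on (iF.integrableOn.const_mul _) iL.integrableOn (hEm _) fun x hx => ?_
        rw [mul_comm]
        exact mul_le_mul_of_nonneg_left (lvl_spec hx).2.1 (hF0 x)
      have e1 : ∫ x in E (k + 1), (if 1 ≤ F x then 11 / 16 * (F x * Real.log (F x)) else 0) ∂μ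
          = 11 / 16 * ∫ x in E (k + 1), F x * Real.log (F x) ∂μ := by
        rw [← integral_const_mul]
        refine setIntegral_congr_fun (hEm _) fun x hx => ?_
        rw [if_pos (lvl_spec hx).1]
      rw [e1]
      have hq0 : 0 < q := Real.exp_pos _
      have hA := setIntegral_chT (μ := μ) hτ (hFm.indicator (hEm (k + 1))) (hEFb _) (hTm k)
      change ∫ y in T k, a (k + 1) y = _ at hA
      rw [hA]
      set G := chG τ (T k) with hG
      have hGm : Measurable G := measurable_chG
      have iFG : Integrable (fun x => (E (k + 1)).indicator F x * G x) μ := by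
        refine Integrable.of_bound ((hFm.indicator (hEm _)).mul hGm).aestronglyMeasurable (M * 1)
          (Eventually.of_forall fun x => ?_)
        rw [Real.norm_eq_abs, abs_mul, abs_of_nonneg (chG_mem hτ (T k) x).1]
        exact mul_le_mul (hEFb _ x) (chG_mem hτ (T k) x).2 (chG_mem hτ (T k) x).1
          ((abs_nonneg _).trans (hEFb (k + 1) x))
      rcases lt_or_ge k 8 with hk | hk
      · have hle : ∫ x, (E (k + 1)).indicator F x * G x ∂μ ≤ mk := by
          rw [hmk, ← integral_indicator (hEm _)]
          refine integral_mono iFG (iF.indicator (hEm _)) fun x => ?_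
          exact mul_le_of_le_one_right (hEF0 _ x) (chG_mem hτ (T k) x).2
        have hk' : (k : ℝ) ≤ 7 := by exact_mod_cast (show k ≤ 7 by omega)
        have h6 := mul_le_mul_of_nonneg_left hle (show (0 : ℝ) ≤ (k : ℝ) / 2 by positivity)
        have h7 := mul_le_mul_of_nonneg_right hk' hmk0
        have h8 : 0 ≤ Real.exp 1 * q ^ k := by positivity
        linarith
      · set δ := Real.exp (-(2 * (k : ℝ))) with hδ
        set P := {x | 1 / 4 < G x} with hP
        have hPm : MeasurableSet P := measurableSet_lt measurable_const hGm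
        have hμE : μ.real (E (k + 1)) ≤ Real.exp (-(k : ℝ)) := by
          have h1 : μ.real (E (k + 1)) * Real.exp (k : ℝ) ≤ mk := by
            rw [hmk, ← smul_eq_mul, ← setIntegral_const]
            refine setIntegral_mono_on (integrable_const _).integrableOn iF.integrableOn (hEm _)
              fun x hx => ?_
            exact (Real.exp_le_exp.2 (lvl_spec hx).2.1).trans_eq
              (Real.exp_log (by linarith [(lvl_spec hx).1]))
          have h2 : mk ≤ 1 := by
            rw [← hF1]; exact setIntegral_le_integral iF (Eventually.of_forall hF0)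
          rw [Real.exp_neg, ← one_div, le_div_iff₀ (Real.exp_pos _)]
          linarith
        have hPle : μ.real P ≤ δ := level_guess hK hconc (hEm (k + 1)) hk hμE
        have hle : ∫ x, (E (k + 1)).indicator F x * G x ∂μ
            ≤ 1 / 4 * mk + Real.exp ((k : ℝ) + 1) * δ := by
          calc _ ≤ ∫ x, 1 / 4 * (E (k + 1)).indicator F x
                + P.indicator (fun _ => Real.exp ((k : ℝ) + 1)) x ∂μ := by
                refine integral_mono iFG (((iF.indicator (hEm _)).const_mul _).add
                  ((integrable_const _).indicator hPm)) fun x => ?_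
                by_cases hx : x ∈ P
                · rw [indicator_of_mem hx]
                  have h1 : (E (k + 1)).indicator F x ≤ Real.exp ((k : ℝ) + 1) := by
                    by_cases hxE : x ∈ E (k + 1)
                    · rw [indicator_of_mem hxE]; exact (lvl_spec hxE).2.2
                    · rw [indicator_of_notMem hxE]; exact (Real.exp_pos _).le
                  have h2 := mul_le_of_le_one_right (hEF0 (k + 1) x) (chG_mem hτ (T k) x).2
                  linarith [hEF0 (k + 1) x]
                · rw [indicator_of_notMem hx, add_zero]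
                  have hx' : G x ≤ 1 / 4 := not_lt.1 hx
                  have := mul_le_mul_of_nonneg_left hx' (hEF0 (k + 1) x)
                  linarith
            _ ≤ _ := by
                rw [integral_add ((iF.indicator (hEm _)).const_mul _)
                  ((integrable_const _).indicator hPm), integral_const_mul,
                  integral_indicator (hEm _), integral_indicator hPm, setIntegral_const, smul_eq_mul,
                  ← hmk, mul_comm (μ.real P)]
                have := mul_le_mul_of_nonneg_left hPle (Real.exp_pos ((k : ℝ) + 1)).le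
                linarith
        have h6 := mul_le_mul_of_nonneg_left hle (show (0 : ℝ) ≤ (k : ℝ) / 2 by positivity)
        have h7 : (k : ℝ) / 2 * (Real.exp ((k : ℝ) + 1) * δ) ≤ Real.exp 1 * q ^ k := by
          have e : Real.exp ((k : ℝ) + 1) * δ = Real.exp 1 * (q ^ k * q ^ k) := by
            rw [hδ, hq, ← Real.exp_nat_mul, ← Real.exp_add, ← Real.exp_add, ← Real.exp_add]
            ring_nf
          rw [e]
          have h9 : (k : ℝ) / 2 * q ^ k ≤ 1 := by
            rw [hq, ← Real.exp_nat_mul, show (k : ℝ) * -(1 / 2) = -((k : ℝ) / 2) by ring,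
              Real.exp_neg, mul_inv_le_iff₀ (Real.exp_pos _), one_mul]
            linarith [Real.add_one_le_exp ((k : ℝ) / 2)]
          have := mul_le_mul_of_nonneg_left h9 (show (0 : ℝ) ≤ Real.exp 1 * q ^ k by positivity)
          linarith
        linarith
  -- assemble
  have iD : Integrable (chT μ τ D) :=
    integrable_chT hτ hDm (B := M') fun x => by rw [abs_of_nonneg (hD0 x)]; exact hDM x
  have iTL : Integrable (chT μ τ fun x => F x * Real.log (F x)) := integrable_chT hτ hLm hLabs
  have hmain : ∫ y, chT μ τ (fun x => F x * Real.log (F x)) y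
      ≤ (∫ y, chT μ τ D y) + ∑ i ∈ Finset.range m, ∫ y, bnd i y := by
    rw [← integral_finsetSum _ fun i _ => ib i, ← integral_add iD (integrable_finsetSum _ fun i _ => ib i)]
    refine integral_mono iTL (iD.add (integrable_finsetSum _ fun i _ => ib i)) fun y => ?_
    have := hpost y
    have := hpt y
    simp only [Pi.add_apply]
    linarith
  rw [integral_chT hτ hLm hLabs,
    integral_chT hτ hDm (B := M') (fun x => by rw [abs_of_nonneg (hD0 x)]; exact hDM x)] at hmain
  have hsumI : ∀ f : Euc n → ℝ, Integrable f μ →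
      ∑ i ∈ Finset.range m, ∫ x in E i, f x ∂μ = ∫ x, f x ∂μ := fun f hf => by
    simp only [← integral_indicator (hEm _)]
    rw [← integral_finsetSum _ fun i _ => hf.indicator (hEm i)]
    refine integral_congr_ae (Eventually.of_forall fun x => ?_)
    simp only
    rw [Finset.sum_eq_single_of_mem (lvl (F x)) (Finset.mem_range.2 (hrange x))
      (fun i _ hi => indicator_of_notMem (show x ∉ E i from fun h => hi (Eq.symm h)) _),
      indicator_of_mem (show x ∈ E (lvl (F x)) from rfl)]
  set H := fun x => if 1 ≤ F x then 11 / 16 * (F x * Real.log (F x)) else 0 with hH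
  have iH : Integrable H μ :=
    Integrable.of_bound
      (Measurable.ite (measurableSet_le measurable_const hFm) (hLm.const_mul _)
        measurable_const).aestronglyMeasurable ML (Eventually.of_forall fun x => by
        simp only [hH, Real.norm_eq_abs]
        split_ifs
        · rw [abs_mul, abs_of_pos (by norm_num : (0 : ℝ) < 11 / 16)]
          linarith [hLabs x, abs_nonneg (F x * Real.log (F x))]
        · rw [abs_zero]; exact (abs_nonneg _).trans (hLabs x))
  have hH1 : ∫ x, H x ∂μ ≤ 11 / 16 * ((∫ x, F x * Real.log (F x) ∂μ) + 1) := by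
    have e : 11 / 16 * ((∫ x, F x * Real.log (F x) ∂μ) + 1)
        = ∫ x, 11 / 16 * (F x * Real.log (F x) + 1) ∂μ := by
      rw [integral_const_mul, integral_add iL (integrable_const _), integral_const]
      simp
    rw [e]
    refine integral_mono iH ((iL.add (integrable_const 1)).const_mul _) fun x => ?_
    simp only [hH]
    split_ifs with hx
    · linarith
    · refine mul_nonneg (by norm_num) ?_
      rcases (hF0 x).eq_or_lt with h | h
      · rw [← h]; simp
      · have := Real.one_sub_inv_le_log_of_pos h
        have h2 := mul_le_mul_of_nonneg_left this h.le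
        rw [mul_sub, mul_inv_cancel₀ h.ne', mul_one] at h2
        linarith
  have hgeo : ∑ i ∈ Finset.range m, (if i = 0 then 0 else Real.exp 1 * q ^ (i - 1)) ≤ 7 := by
    rw [hm, Finset.sum_range_succ']
    simp only [Nat.succ_ne_zero, if_false, Nat.add_sub_cancel, if_true, add_zero, ← Finset.mul_sum]
    have hq1 : q ≤ 2 / 3 := by
      rw [hq, Real.exp_neg, show (2 : ℝ) / 3 = (3 / 2)⁻¹ by norm_num]
      exact inv_anti₀ (by norm_num) (by linarith [Real.add_one_le_exp (1 / 2 : ℝ)])
    have hg := geom_sum_Ico_le_of_lt_one (m := 0) (n := ⌊Real.log (max M 1)⌋₊ + 1)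
      (Real.exp_pos _).le (show q < 1 by linarith)
    rw [← Finset.range_eq_Ico, pow_zero] at hg
    have h3 : 1 / (1 - q) ≤ 2.5 + 0.5 := by
      rw [div_le_iff₀ (by linarith)]
      linarith
    have h4 : q ≤ 0.61 := by
      rw [hq, Real.exp_neg, inv_le_comm₀ (Real.exp_pos _) (by norm_num)]
      have := Real.quadratic_le_exp_of_nonneg (show (0 : ℝ) ≤ 1 / 2 by norm_num)
      have := Real.sum_le_exp_of_nonneg (show (0 : ℝ) ≤ 1 / 2 by norm_num) 5
      norm_num [Finset.sum_range_succ, Nat.factorial] at this ⊢
      linarith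
    have h5 : 1 / (1 - q) ≤ 2.57 := by
      rw [div_le_iff₀ (by linarith)]
      linarith
    have he := Real.exp_one_lt_d9
    calc Real.exp 1 * _ ≤ Real.exp 1 * 2.57 :=
          mul_le_mul_of_nonneg_left (hg.trans h5) (Real.exp_pos _).le
      _ ≤ 7 := by linarith
  have htot := Finset.sum_le_sum fun i (_ : i ∈ Finset.range m) => hint i
  rw [Finset.sum_add_distrib, Finset.sum_add_distrib, ← Finset.mul_sum, hsumI H iH, hsumI F iF,
    hF1] at htot
  have hD' : 0 ≤ ∫ x, D x ∂μ := integral_nonneg hD0
  linarith

/-- Tightening: a function living on at most half of the space. -/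
theorem tight {F D : Euc n → ℝ} {M M' : ℝ} (hFm : Measurable F) (hF0 : ∀ x, 0 ≤ F x)
    (hFM : ∀ x, F x ≤ M) (hF1 : ∫ x, F x ∂μ = 1) (hDm : Measurable D) (hD0 : ∀ x, 0 ≤ D x)
    (hDM : ∀ x, D x ≤ M') (hpost : Post μ (1 / (60000 * K)) F D) {B : Set (Euc n)}
    (hB : MeasurableSet B) (hμB : μ.real B ≤ 1 / 2) (hsupp : ∀ x ∉ B, F x = 0) :
    1 ≤ 50 * ∫ x, D x ∂μ := by
  have hdef := defective hK hconc hFm hF0 hFM hF1 hDm hD0 hDM hpost
  set τ := 1 / (60000 * K) with hτd
  have hτ : 0 < τ := by positivity
  have hFabs : ∀ x, |F x| ≤ M := fun x => by rw [abs_of_nonneg (hF0 x)]; exact hFM x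
  have hDabs : ∀ x, |D x| ≤ M' := fun x => by rw [abs_of_nonneg (hD0 x)]; exact hDM x
  obtain ⟨ML, hML⟩ := (isCompact_Icc (a := (0 : ℝ)) (b := M)).exists_bound_of_continuousOn
    (Real.continuous_mul_log.continuousOn)
  have hLabs : ∀ x, |F x * Real.log (F x)| ≤ ML := fun x => hML (F x) ⟨hF0 x, hFM x⟩
  have hLm : Measurable fun x => F x * Real.log (F x) := hFm.mul (Real.measurable_log.comp hFm)
  have iL : Integrable (fun x => F x * Real.log (F x)) μ :=
    Integrable.of_bound hLm.aestronglyMeasurable ML (Eventually.of_forall hLabs)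
  have iF : Integrable F μ :=
    Integrable.of_bound hFm.aestronglyMeasurable M (Eventually.of_forall hFabs)
  set N := chT μ τ (fun _ => (1 : ℝ)) with hNd
  set W := chT μ τ (B.indicator fun _ => (1 : ℝ)) with hWd
  have hBb : ∀ x, |B.indicator (fun _ : Euc n => (1 : ℝ)) x| ≤ 1 := fun x => by
    by_cases hx : x ∈ B <;> simp [hx]
  have hBm : Measurable (B.indicator fun _ : Euc n => (1 : ℝ)) := measurable_const.indicator hB
  have hone : ∀ _x : Euc n, |(1 : ℝ)| ≤ 1 := fun _ => by simp
  set T := {y | 3 / 4 * N y < W y} with hT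
  have hTm : MeasurableSet T := measurableSet_lt (measurable_const.mul (measurable_chT measurable_const))
    (measurable_chT hBm)
  -- outside the bad set the posterior entropy is large
  have hgood : ∀ y, y ∉ T → chT μ τ F y / 4 ≤ chT μ τ D y := by
    intro y hy
    refine le_trans ?_ (hpost y)
    have hy' : W y ≤ 3 / 4 * N y := not_lt.1 hy
    have hN : 0 < N y := chT_one_pos hτ y
    set A := chT μ τ F y with hA
    have hA0 : 0 ≤ A := chT_nonneg hτ hF0 y
    rcases hA0.eq_or_lt with h | h
    · rw [← h, zero_div, zero_mul, sub_zero]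
      have h1 := (integral_eq_zero_iff_of_nonneg (μ := μ)
        (fun z => mul_nonneg (hF0 z) (gker_pos hτ (z - y)).le)
        (integrable_ker hτ hFm hFabs y)).1 (hA.symm.trans h.symm)
      refine integral_nonneg_of_ae ?_
      filter_upwards [h1] with x hx
      simp only [Pi.zero_apply] at hx ⊢
      rw [mul_right_comm, hx, zero_mul]
    have hW : 0 < W y := by
      by_contra hW
      have hAW : A ≤ M * W y := by
        rw [hA, hWd, chT, chT, ← integral_const_mul]
        refine integral_mono (integrable_ker hτ hFm hFabs y)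
          ((integrable_ker hτ hBm hBb y).const_mul _) fun x => ?_
        by_cases hx : x ∈ B
        · rw [indicator_of_mem hx, one_mul]
          exact mul_le_mul_of_nonneg_right (hFM x) (gker_pos hτ _).le
        · rw [indicator_of_notMem hx, hsupp x hx]; simp
      have hW0 : W y = 0 := le_antisymm (not_lt.1 hW)
        (chT_nonneg hτ (fun x => indicator_nonneg (fun _ _ => zero_le_one) x) y)
      rw [hW0, mul_zero] at hAW
      linarith
    set c := A / W y with hc
    have hc0 : 0 < c := div_pos h hW
    have hpt : ∀ x, (F x * Real.log c + F x - c * B.indicator (fun _ => (1 : ℝ)) x)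
        * gker n τ (x - y) ≤ F x * Real.log (F x) * gker n τ (x - y) := fun x => by
      refine mul_le_mul_of_nonneg_right ?_ (gker_pos hτ _).le
      by_cases hx : x ∈ B
      · rw [indicator_of_mem hx, mul_one]
        rcases (hF0 x).eq_or_lt with h0 | h0
        · rw [← h0]; simp; exact hc0.le
        · have h1 := Real.log_le_sub_one_of_pos (div_pos hc0 h0)
          rw [Real.log_div hc0.ne' h0.ne'] at h1
          have h2 := mul_le_mul_of_nonneg_left h1 h0.le
          rw [mul_sub, mul_sub, mul_one, mul_div_cancel₀ _ h0.ne'] at h2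
          linarith
      · rw [indicator_of_notMem hx, hsupp x hx]; simp
    have i1 : Integrable (fun x => F x * gker n τ (x - y)) μ := integrable_ker hτ hFm hFabs y
    have i2 : Integrable (fun x => B.indicator (fun _ => (1 : ℝ)) x * gker n τ (x - y)) μ :=
      integrable_ker hτ hBm hBb y
    have i3 : Integrable (fun x => F x * Real.log (F x) * gker n τ (x - y)) μ :=
      integrable_ker hτ hLm hLabs y
    have e : ∫ x, (F x * Real.log c + F x - c * B.indicator (fun _ => (1 : ℝ)) x)
        * gker n τ (x - y) ∂μ = A * Real.log c := by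
      calc _ = ∫ x, (Real.log c + 1) * (F x * gker n τ (x - y))
            - c * (B.indicator (fun _ => (1 : ℝ)) x * gker n τ (x - y)) ∂μ :=
            integral_congr_ae (Eventually.of_forall fun x => by simp only; ring)
        _ = _ := by
            rw [integral_sub (i1.const_mul _) (i2.const_mul _), integral_const_mul, integral_const_mul]
            change (Real.log c + 1) * A - c * W y = _
            rw [hc, div_mul_cancel₀ _ hW.ne']
            ring
    have hJ : A * Real.log c ≤ chT μ τ (fun x => F x * Real.log (F x)) y := by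
      rw [← e]
      refine integral_mono ?_ i3 hpt
      refine ((i1.const_mul (Real.log c + 1)).sub (i2.const_mul c)).congr
        (Eventually.of_forall fun x => ?_)
      simp only [Pi.sub_apply]; ring
    have hl : 1 / 4 ≤ Real.log c - Real.log (A / N y) := by
      rw [hc, Real.log_div h.ne' hW.ne', Real.log_div h.ne' hN.ne']
      have h1 : Real.log (W y / N y) ≤ W y / N y - 1 := Real.log_le_sub_one_of_pos (div_pos hW hN)
      rw [Real.log_div hW.ne' hN.ne'] at h1
      have h2 : W y / N y ≤ 3 / 4 := (div_le_iff₀ hN).2 hy'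
      linarith
    have := mul_le_mul_of_nonneg_left hl hA0
    linarith
  -- the bad set holds little of the mass
  set G := chG τ T with hG
  have hGm : Measurable G := measurable_chG
  have hGi : ∫ x, G x ∂μ ≤ 2 / 3 := by
    have e := setIntegral_chT (μ := μ) hτ (F := fun _ => (1 : ℝ)) (B := 1) measurable_const hone hTm
    simp only [one_mul] at e
    rw [hG, ← e]
    have h1 : 3 / 4 * ∫ y in T, N y ≤ ∫ y, W y := by
      rw [← integral_const_mul]
      refine le_trans (setIntegral_mono_on ((integrable_chT hτ measurable_const hone).const_mul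
        _).integrableOn (integrable_chT hτ hBm hBb).integrableOn hTm fun y hy => le_of_lt hy) ?_
      exact setIntegral_le_integral (integrable_chT hτ hBm hBb)
        (Eventually.of_forall fun y => chT_nonneg hτ (fun x => indicator_nonneg (fun _ _ => zero_le_one) x) y)
    rw [hWd, integral_chT hτ hBm hBb, integral_indicator hB, setIntegral_const, smul_eq_mul,
      mul_one] at h1
    linarith
  set P := {x | 7 / 8 < G x} with hP
  have hPm : MeasurableSet P := measurableSet_lt measurable_const hGm
  have hPle : μ.real P ≤ Real.exp (-2010) := by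
    refine level_small hτ hconc (r := Real.sqrt (K * 3000)) (Real.sqrt_pos.2 (by positivity))
      (by norm_num) ?_ (Real.exp_pos _)
    rw [Real.sq_sqrt (by positivity)]
    have e1 : K * 3000 / K = 3000 := by field_simp
    have e2 : τ * (K * 3000) = 1 / 20 := by rw [hτd]; field_simp; norm_num
    rw [e1, e2]
    have e3 : 3 * Real.exp (-3000) / Real.exp (-2010) ≤ 1 / 100 := by
      rw [mul_div_assoc, ← Real.exp_sub]
      exact le_trans (mul_le_mul_of_nonneg_left (Real.exp_le_exp.2 (by norm_num)) (by norm_num))
        small_exp.1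
    have e4 : (19 / 20 : ℝ) ≤ Real.exp (-(1 / 20 : ℝ)) := by
      have := Real.add_one_le_exp (-(1 / 20 : ℝ)); linarith
    have e5 : (7 / 8 : ℝ) ^ 2 * (19 / 20) * (99 / 100)
        ≤ (7 / 8 : ℝ) ^ 2 * Real.exp (-(1 / 20 : ℝ))
          * (1 - 3 * Real.exp (-3000) / Real.exp (-2010)) := by
      refine mul_le_mul ?_ (by linarith) (by norm_num) (by positivity)
      exact mul_le_mul_of_nonneg_left e4 (by positivity)
    linarith
  set Tb := Real.exp 2000 with hTb
  set Hs := {x | Tb < F x} with hHs
  have hHm : MeasurableSet Hs := measurableSet_lt measurable_const hFm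
  have hhigh : ∫ x in Hs, F x ∂μ ≤ ((∫ x, F x * Real.log (F x) ∂μ) + 1) / 2000 := by
    rw [le_div_iff₀ (by norm_num), ← integral_indicator hHm, ← integral_mul_const]
    have e : (∫ x, F x * Real.log (F x) ∂μ) + 1 = ∫ x, (F x * Real.log (F x) + 1) ∂μ := by
      rw [integral_add iL (integrable_const _), integral_const]; simp
    rw [e]
    refine integral_mono ((iF.indicator hHm).mul_const _) (iL.add (integrable_const 1)) fun x => ?_
    by_cases hx : x ∈ Hs
    · rw [indicator_of_mem hx]
      have hx' : Tb < F x := hx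
      have h1 : (2000 : ℝ) ≤ Real.log (F x) := by
        rw [Real.le_log_iff_exp_le (lt_trans (Real.exp_pos _) hx')]; exact hx'.le
      have := mul_le_mul_of_nonneg_left h1 (hF0 x)
      linarith
    · rw [indicator_of_notMem hx, zero_mul]
      rcases (hF0 x).eq_or_lt with h | h
      · rw [← h]; simp
      · have h1 := Real.one_sub_inv_le_log_of_pos h
        have h2 := mul_le_mul_of_nonneg_left h1 h.le
        rw [mul_sub, mul_inv_cancel₀ h.ne', mul_one] at h2
        linarith
  have hbad : ∫ y in T, chT μ τ F y ≤ 7 / 8 + Real.exp (-10) + ∫ x in Hs, F x ∂μ := by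
    rw [setIntegral_chT hτ hFm hFabs hTm]
    calc ∫ x, F x * G x ∂μ ≤ ∫ x, 7 / 8 * F x + (P.indicator (fun _ => Tb) x + Hs.indicator F x) ∂μ := by
          refine integral_mono (Integrable.of_bound (hFm.mul hGm).aestronglyMeasurable M
            (Eventually.of_forall fun x => ?_)) ((iF.const_mul _).add
            (((integrable_const _).indicator hPm).add (iF.indicator hHm))) fun x => ?_
          · rw [Real.norm_eq_abs, abs_mul, abs_of_nonneg (chG_mem hτ T x).1]
            exact (mul_le_of_le_one_right (abs_nonneg _) (chG_mem hτ T x).2).trans (hFabs x)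
          · by_cases hx : x ∈ P
            · rw [indicator_of_mem hx]
              have h1 := mul_le_of_le_one_right (hF0 x) (chG_mem hτ T x).2
              by_cases hxH : x ∈ Hs
              · rw [indicator_of_mem hxH]; linarith [hF0 x, Real.exp_pos 2000]
              · rw [indicator_of_notMem hxH]
                have : F x ≤ Tb := not_lt.1 hxH
                linarith [hF0 x]
            · rw [indicator_of_notMem hx]
              have hx' : G x ≤ 7 / 8 := not_lt.1 hx
              have h2 := mul_le_mul_of_nonneg_left hx' (hF0 x)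
              have h3 : 0 ≤ Hs.indicator F x := indicator_nonneg (fun z _ => hF0 z) x
              linarith
      _ ≤ _ := by
          have i2 : Integrable (fun x => P.indicator (fun _ => Tb) x + Hs.indicator F x) μ :=
            ((integrable_const _).indicator hPm).add (iF.indicator hHm)
          rw [integral_add (iF.const_mul _) i2, integral_add ((integrable_const _).indicator hPm)
            (iF.indicator hHm), integral_const_mul, hF1, integral_indicator hPm,
            integral_indicator hHm, setIntegral_const, smul_eq_mul]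
          have := mul_le_mul_of_nonneg_right hPle (Real.exp_pos 2000).le
          rw [← Real.exp_add] at this
          norm_num at this ⊢
          linarith
  have hgood' : (1 - ∫ y in T, chT μ τ F y) / 4 ≤ ∫ x, D x ∂μ := by
    have iA := integrable_chT (μ := μ) hτ hFm hFabs
    have iD := integrable_chT (μ := μ) hτ hDm hDabs
    rw [← integral_chT hτ hDm hDabs, ← hF1, ← integral_chT hτ hFm hFabs,
      ← integral_add_compl hTm iA, add_sub_cancel_left, ← integral_div]
    refine le_trans (setIntegral_mono_on (iA.div_const 4).integrableOn iD.integrableOn hTm.compl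
      fun y hy => hgood y hy) ?_
    exact setIntegral_le_integral iD (Eventually.of_forall fun y => chT_nonneg hτ hD0 y)
  have h10 : Real.exp (-10) ≤ 1 / 20 * (1 / 20) := by
    calc Real.exp (-10) ≤ Real.exp (-3) * Real.exp (-3) := by
          rw [← Real.exp_add]; exact Real.exp_le_exp.2 (by norm_num)
      _ ≤ _ := mul_le_mul small_exp.2 small_exp.2 (Real.exp_pos _).le (by norm_num)
  have hD' : 0 ≤ ∫ x, D x ∂μ := integral_nonneg hD0
  linarith

end Vale.Agent.P245.LSI
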