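import Mathlib
import Vale.Agent.P245.LSI.Entropy
import Vale.Agent.P245.Sub.Combined

/-!
From Gaussian concentration and the posterior entropy inequalities to the logarithmic Sobolev
inequality: normalisation, truncation at the median, and removal of the additive constant.
-/

open MeasureTheory Filter Set
open scoped ContDiff RealInnerProductSpace Topology ENNReal NNReal
open Vale.Agent.P245.Sub

namespace Vale.Agent.P245.LSI

variable {n : ℕ}

/-- Bounded `C¹` functions with compactly supported derivative. -/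
structure Test (g : Euc n → ℝ) : Prop where
  smooth : ContDiff ℝ 1 g
  bdd : ∃ M, ∀ x, |g x| ≤ M
  supp : HasCompactSupport (fderiv ℝ g)

/-- The entropy inequality of the posterior measures, for all test functions. -/
def PostAll (μ : Measure (Euc n)) (τ : ℝ) : Prop :=
  ∀ g : Euc n → ℝ, Test g →
    Post μ τ (fun x => g x ^ 2) (fun x => 4 / τ * ‖fderiv ℝ g x‖ ^ 2)

/-- Concentration around medians gives two-set concentration. -/
lemma conc_of_median {μ : Measure (Euc n)} [IsProbabilityMeasure μ] {Kc : ℝ}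
    (h : ∀ g : Euc n → ℝ, LipschitzWith 1 g → ∀ m : ℝ, 1 / 2 ≤ μ.real {x | g x ≤ m} →
      ∀ r : ℝ, 0 ≤ r → μ.real {x | m + r ≤ g x} ≤ Real.exp (1 - r ^ 2 / Kc)) :
    Conc μ (4 * Kc) := by
  intro A B hA hB r hr hsep
  rcases A.eq_empty_or_nonempty with rfl | hne
  · simp only [measureReal_empty, zero_mul]; positivity
  have hg : LipschitzWith 1 fun x => Metric.infDist x A := Metric.lipschitz_infDist_pt A
  obtain ⟨m, hm1, hm2⟩ := exists_median μ (f := fun x => Metric.infDist x A) hg.continuous.measurable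
  have e : Real.exp (1 - (r / 2) ^ 2 / Kc) ≤ 3 * Real.exp (-(r ^ 2 / (4 * Kc))) := by
    rw [show 1 - (r / 2) ^ 2 / Kc = 1 + -(r ^ 2 / (4 * Kc)) by ring, Real.exp_add]
    exact mul_le_mul_of_nonneg_right (by linarith [Real.exp_one_lt_d9]) (Real.exp_pos _).le
  refine le_trans ?_ e
  rcases le_total (r / 2) m with hmr | hmr
  · refine le_trans (mul_le_of_le_one_right measureReal_nonneg measureReal_le_one) ?_
    refine le_trans (measureReal_mono fun x hx => ?_)
      (h _ hg.neg (-m) (by simp only [Pi.neg_apply, neg_le_neg_iff]; exact hm2) (r / 2) (by linarith))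
    show -m + r / 2 ≤ -Metric.infDist x A
    rw [Metric.infDist_zero_of_mem hx]
    linarith
  · refine le_trans (mul_le_of_le_one_left measureReal_nonneg measureReal_le_one) ?_
    refine le_trans (measureReal_mono fun x hx => ?_) (h _ hg m hm1 (r / 2) (by linarith))
    show m + r / 2 ≤ Metric.infDist x A
    have : r ≤ Metric.infDist x A := (Metric.le_infDist hne).2 fun a ha => by
      rw [dist_eq_norm, norm_sub_rev]; exact hsep a ha x hx
    linarith

variable {μ : Measure (Euc n)} [IsProbabilityMeasure μ]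

lemma Test.int_sq {g : Euc n → ℝ} (hg : Test g) :
    Integrable (fun x => g x ^ 2) μ ∧ Integrable (fun x => g x ^ 2 * Real.log (g x ^ 2)) μ
      ∧ Integrable (fun x => ‖fderiv ℝ g x‖ ^ 2) μ := by
  obtain ⟨M, hM⟩ := hg.bdd
  have hc := hg.smooth.continuous
  have hb : ∀ x, g x ^ 2 ≤ M ^ 2 := fun x => by
    rw [← sq_abs]; exact pow_le_pow_left₀ (abs_nonneg _) (hM x) 2
  refine ⟨Integrable.of_bound (hc.pow 2).aestronglyMeasurable (M ^ 2) (Eventually.of_forall fun x => by
      rw [Real.norm_eq_abs, abs_of_nonneg (sq_nonneg _)]; exact hb x), ?_, ?_⟩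
  · obtain ⟨ML, hML⟩ := (isCompact_Icc (a := (0 : ℝ)) (b := M ^ 2)).exists_bound_of_continuousOn
      (Real.continuous_mul_log.continuousOn)
    exact Integrable.of_bound (Real.continuous_mul_log.comp (hc.pow 2)).aestronglyMeasurable ML
      (Eventually.of_forall fun x => hML _ ⟨sq_nonneg _, hb x⟩)
  · have hd : Continuous fun x => ‖fderiv ℝ g x‖ ^ 2 := (hg.smooth.continuous_fderiv (by simp)).norm.pow 2
    obtain ⟨B, hB⟩ := hd.bounded_above_of_compact_support
      (hg.supp.comp_left (g := fun L => ‖L‖ ^ 2) (by simp))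
    exact Integrable.of_bound hd.aestronglyMeasurable B (Eventually.of_forall hB)

lemma Test.scale {g : Euc n → ℝ} (hg : Test g) (c : ℝ) :
    Test (fun x => c * g x) ∧ ∀ x, fderiv ℝ (fun x => c * g x) x = c • fderiv ℝ g x := by
  have hd : ∀ x, fderiv ℝ (fun x => c * g x) x = c • fderiv ℝ g x := fun x =>
    fderiv_const_mul (hg.smooth.differentiable (by simp) x) c
  refine ⟨⟨contDiff_const.mul hg.smooth, ?_, ?_⟩, hd⟩
  · obtain ⟨M, hM⟩ := hg.bdd
    exact ⟨|c| * M, fun x => by rw [abs_mul]; exact mul_le_mul_of_nonneg_left (hM x) (abs_nonneg c)⟩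
  · rw [funext hd]
    exact hg.supp.mono' (fun x hx => subset_tsupport _ fun h0 => hx (by simp [h0]))

variable {K : ℝ} (hK : 0 < K) (hconc : Conc μ K) (hpost : PostAll μ (1 / (60000 * K)))
include hK hconc hpost

/-- The defective inequality, and the tight one on half of the space, for normalised functions. -/
lemma normalised {g : Euc n → ℝ} (hg : Test g) (hs : ∫ x, g x ^ 2 ∂μ = 1) :
    ∫ x, g x ^ 2 * Real.log (g x ^ 2) ∂μ ≤ 960000 * K * (∫ x, ‖fderiv ℝ g x‖ ^ 2 ∂μ) + 60 ∧
      (μ.real {x | g x ≠ 0} ≤ 1 / 2 → 1 ≤ 12000000 * K * ∫ x, ‖fderiv ℝ g x‖ ^ 2 ∂μ) := by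
  obtain ⟨M, hM⟩ := hg.bdd
  have hc := hg.smooth.continuous
  have hd : Continuous fun x => ‖fderiv ℝ g x‖ ^ 2 := (hg.smooth.continuous_fderiv (by simp)).norm.pow 2
  obtain ⟨B, hB⟩ := hd.bounded_above_of_compact_support
    (hg.supp.comp_left (g := fun L => ‖L‖ ^ 2) (by simp))
  have hcτ : 0 ≤ 4 / (1 / (60000 * K)) := by positivity
  have hFM : ∀ x, g x ^ 2 ≤ M ^ 2 := fun x => by
    rw [← sq_abs]; exact pow_le_pow_left₀ (abs_nonneg _) (hM x) 2
  have hDM : ∀ x, 4 / (1 / (60000 * K)) * ‖fderiv ℝ g x‖ ^ 2 ≤ 4 / (1 / (60000 * K)) * B := fun x =>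
    mul_le_mul_of_nonneg_left ((le_abs_self _).trans (hB x)) hcτ
  have e : ∫ x, 4 / (1 / (60000 * K)) * ‖fderiv ℝ g x‖ ^ 2 ∂μ
      = 240000 * K * ∫ x, ‖fderiv ℝ g x‖ ^ 2 ∂μ := by
    rw [integral_const_mul, div_div_eq_mul_div, div_one]; ring
  have hDn : ∀ x, 0 ≤ 4 / (1 / (60000 * K)) * ‖fderiv ℝ g x‖ ^ 2 := fun x =>
    mul_nonneg hcτ (sq_nonneg _)
  constructor
  · have h := defective hK hconc (F := fun x => g x ^ 2) (hc.pow 2).measurable (fun x => sq_nonneg _) hFM hs
      (hd.measurable.const_mul _) hDn hDM (hpost g hg)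
    rw [e] at h
    linarith
  · intro hμ
    have h := tight hK hconc (F := fun x => g x ^ 2) (hc.pow 2).measurable (fun x => sq_nonneg _) hFM hs
      (hd.measurable.const_mul _) hDn hDM (hpost g hg)
      (B := {x | g x ≠ 0}) (hc.measurable (measurableSet_singleton 0).compl) hμ
      (fun x hx => by
        have : g x = 0 := not_not.1 hx
        simp [this])
    rw [e] at h
    linarith

lemma defective_gen {g : Euc n → ℝ} (hg : Test g) :
    (∫ x, g x ^ 2 * Real.log (g x ^ 2) ∂μ) - (∫ x, g x ^ 2 ∂μ) * Real.log (∫ x, g x ^ 2 ∂μ)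
      ≤ 960000 * K * (∫ x, ‖fderiv ℝ g x‖ ^ 2 ∂μ) + 60 * ∫ x, g x ^ 2 ∂μ := by
  obtain ⟨i1, i2, i3⟩ := hg.int_sq (μ := μ)
  set s := ∫ x, g x ^ 2 ∂μ with hsd
  have hI : 0 ≤ ∫ x, ‖fderiv ℝ g x‖ ^ 2 ∂μ := integral_nonneg fun x => sq_nonneg _
  have hs0 : 0 ≤ s := integral_nonneg fun x => sq_nonneg (g x)
  rcases hs0.eq_or_lt with h | h
  · have h0 : (fun x => g x ^ 2) =ᵐ[μ] 0 :=
      (integral_eq_zero_iff_of_nonneg (fun x => sq_nonneg (g x)) i1).1 h.symm
    have e : ∫ x, g x ^ 2 * Real.log (g x ^ 2) ∂μ = 0 := integral_eq_zero_of_ae (by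
      filter_upwards [h0] with x hx
      simp only [Pi.zero_apply] at hx ⊢
      rw [hx, zero_mul])
    rw [e, ← h]
    simp only [zero_mul, sub_zero, mul_zero, add_zero]
    positivity
  obtain ⟨hg', hd'⟩ := hg.scale (Real.sqrt s)⁻¹
  have hc2 : ((Real.sqrt s)⁻¹) ^ 2 = s⁻¹ := by rw [inv_pow, Real.sq_sqrt h.le]
  have hn := (normalised hK hconc hpost hg' (by
    simp only [mul_pow, hc2]
    rw [integral_const_mul, ← hsd, inv_mul_cancel₀ h.ne'])).1
  simp only [hd', norm_smul, mul_pow, Real.norm_eq_abs, sq_abs, hc2, integral_const_mul] at hn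
  have e : ∀ x, s⁻¹ * g x ^ 2 * Real.log (s⁻¹ * g x ^ 2)
      = s⁻¹ * (g x ^ 2 * Real.log (g x ^ 2) - g x ^ 2 * Real.log s) := fun x => by
    rcases eq_or_ne (g x) 0 with hx | hx
    · simp [hx]
    · rw [Real.log_mul (inv_ne_zero h.ne') (pow_ne_zero 2 hx), Real.log_inv]; ring
  simp only [e] at hn
  rw [integral_const_mul, integral_sub i2 (i1.mul_const _), integral_mul_const, ← hsd,
    inv_mul_le_iff₀ h] at hn
  have e2 : s * (960000 * K * (s⁻¹ * ∫ x, ‖fderiv ℝ g x‖ ^ 2 ∂μ) + 60)
      = 960000 * K * (∫ x, ‖fderiv ℝ g x‖ ^ 2 ∂μ) + 60 * s := by field_simp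
  linarith

lemma tight_gen {g : Euc n → ℝ} (hg : Test g) (hμ : μ.real {x | g x ≠ 0} ≤ 1 / 2) :
    ∫ x, g x ^ 2 ∂μ ≤ 12000000 * K * ∫ x, ‖fderiv ℝ g x‖ ^ 2 ∂μ := by
  set s := ∫ x, g x ^ 2 ∂μ with hsd
  have hs0 : 0 ≤ s := integral_nonneg fun x => sq_nonneg (g x)
  rcases hs0.eq_or_lt with h | h
  · rw [← h]
    exact mul_nonneg (by positivity) (integral_nonneg fun x => sq_nonneg _)
  obtain ⟨hg', hd'⟩ := hg.scale (Real.sqrt s)⁻¹
  have hc2 : ((Real.sqrt s)⁻¹) ^ 2 = s⁻¹ := by rw [inv_pow, Real.sq_sqrt h.le]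
  have hne : {x | (Real.sqrt s)⁻¹ * g x ≠ 0} = {x | g x ≠ 0} := by
    ext x; simp [(Real.sqrt_pos.2 h).ne']
  have hn := (normalised hK hconc hpost hg' (by
    simp only [mul_pow, hc2]
    rw [integral_const_mul, ← hsd, inv_mul_cancel₀ h.ne'])).2 (by rw [hne]; exact hμ)
  simp only [hd', norm_smul, mul_pow, Real.norm_eq_abs, sq_abs, hc2, integral_const_mul] at hn
  rw [mul_left_comm, ← div_eq_inv_mul, one_le_div h] at hn
  exact hn

omit hK hconc hpost in
lemma entropy_shift {u m s : ℝ} (hs : 0 < s) :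
    (u + m) ^ 2 * Real.log ((u + m) ^ 2 / (m ^ 2 + s)) - (u + m) ^ 2 + (m ^ 2 + s)
      ≤ 4 * (u ^ 2 * Real.log (u ^ 2) - u ^ 2 * Real.log s) + 20 * u ^ 2 + 7 * s := by
  set c := m ^ 2 + s with hc
  set a := (u + m) ^ 2 with ha
  have hc0 : 0 < c := by positivity
  have ha0 : 0 ≤ a := sq_nonneg _
  have hu : u ^ 2 * Real.log (u ^ 2) - u ^ 2 * Real.log s = u ^ 2 * Real.log (u ^ 2 / s) := by
    rcases eq_or_ne u 0 with hu0 | hu0
    · simp [hu0]
    · rw [Real.log_div (pow_ne_zero 2 hu0) hs.ne']; ring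
  rw [hu]
  rcases le_or_gt (u ^ 2) c with h | h
  · have h1 : a * Real.log (a / c) ≤ a * (a / c - 1) := by
      rcases ha0.eq_or_lt with h0 | h0
      · rw [← h0]; simp
      · exact mul_le_mul_of_nonneg_left (Real.log_le_sub_one_of_pos (div_pos h0 hc0)) ha0
    have h2 : a * (a / c - 1) - a + c = (a - c) ^ 2 / c := by field_simp; ring
    have h3 : (a - c) ^ 2 / c ≤ 15 * u ^ 2 + 3 * s := by
      rw [div_le_iff₀ hc0]
      have e : a - c = 2 * m * u + u ^ 2 - s := by rw [ha, hc]; ring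
      rw [e]
      have h4 : (2 * m * u + u ^ 2 - s) ^ 2 ≤ 3 * (4 * m ^ 2 * u ^ 2 + u ^ 4 + s ^ 2) := by
        nlinarith [sq_nonneg (2 * m * u - u ^ 2), sq_nonneg (2 * m * u + s), sq_nonneg (u ^ 2 + s)]
      have h5 := mul_le_mul_of_nonneg_left h (sq_nonneg u)
      have h6 : m ^ 2 * u ^ 2 ≤ c * u ^ 2 := mul_le_mul_of_nonneg_right (by linarith) (sq_nonneg u)
      have h7 : s * s ≤ c * s := mul_le_mul_of_nonneg_right (by linarith [sq_nonneg m]) hs.le
      linarith
    have h4 : u ^ 2 - s ≤ u ^ 2 * Real.log (u ^ 2 / s) := by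
      rcases (sq_nonneg u).eq_or_lt with h0 | h0
      · rw [← h0]; simp; linarith
      · have := mul_le_mul_of_nonneg_left (Real.one_sub_inv_le_log_of_pos (div_pos h0 hs)) h0.le
        rw [inv_div, mul_sub, mul_one, mul_div_cancel₀ _ h0.ne'] at this
        exact this
    linarith [sq_nonneg u]
  · have hm : m ^ 2 ≤ u ^ 2 := by linarith
    have h1 : a ≤ 4 * u ^ 2 := by rw [ha]; nlinarith [sq_nonneg (u - m)]
    have hu0 : 0 < u ^ 2 := hc0.trans h
    have hl0 : 0 ≤ Real.log (4 * u ^ 2 / s) := by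
      refine Real.log_nonneg ((one_le_div hs).2 ?_)
      linarith [sq_nonneg m]
    have h2 : a * Real.log (a / c) ≤ 4 * u ^ 2 * Real.log (4 * u ^ 2 / s) := by
      rcases ha0.eq_or_lt with h0 | h0
      · rw [← h0, zero_mul]; positivity
      · refine le_trans (mul_le_mul_of_nonneg_left ?_ ha0) (mul_le_mul_of_nonneg_right h1 hl0)
        refine Real.log_le_log (div_pos h0 hc0) ?_
        gcongr
        linarith [sq_nonneg m]
    have h3 : Real.log (4 * u ^ 2 / s) = 2 * Real.log 2 + Real.log (u ^ 2 / s) := by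
      rw [mul_div_assoc, Real.log_mul (by norm_num) (div_pos hu0 hs).ne',
        show (4 : ℝ) = 2 ^ (2 : ℕ) by norm_num, Real.log_pow]
      push_cast; ring
    rw [h3] at h2
    have := mul_le_mul_of_nonneg_left Real.log_two_lt_d9.le (sq_nonneg u)
    linarith

omit hK hconc hpost in
lemma exists_trunc : ∃ C : ℝ, 0 ≤ C ∧ ∀ ε : ℝ, 0 < ε → ∀ u : ℝ,
    |deriv (fun u => u * Real.smoothTransition (u / ε)) u| ≤ C := by
  set F := fun v : ℝ => Real.smoothTransition v + v * deriv Real.smoothTransition v with hF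
  have hs : ContDiff ℝ 1 Real.smoothTransition := Real.smoothTransition.contDiff
  have hFc : Continuous F := hs.continuous.add (continuous_id.mul (hs.continuous_deriv le_rfl))
  obtain ⟨C, hC⟩ := (isCompact_Icc (a := (-1 : ℝ)) (b := 2)).exists_bound_of_continuousOn hFc.continuousOn
  refine ⟨max C 1, le_max_of_le_right zero_le_one, fun ε hε u => ?_⟩
  have hd : HasDerivAt (fun u => u * Real.smoothTransition (u / ε)) (F (u / ε)) u := by
    have h1 : HasDerivAt (fun u => Real.smoothTransition (u / ε))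
        (deriv Real.smoothTransition (u / ε) * (1 / ε)) u :=
      HasDerivAt.comp (h := fun u : ℝ => u / ε) u ((hs.differentiable (by simp) (u / ε)).hasDerivAt)
        ((hasDerivAt_id u).div_const ε)
    refine ((hasDerivAt_id u).mul h1).congr_deriv ?_
    simp only [hF, id]
    ring
  rw [hd.deriv]
  rcases le_or_gt (-1) (u / ε) with h1 | h1
  · rcases le_or_gt (u / ε) 2 with h2 | h2
    · exact (hC _ ⟨h1, h2⟩).trans (le_max_left _ _)
    · have e : deriv Real.smoothTransition (u / ε) = 0 := by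
        have : Real.smoothTransition =ᶠ[𝓝 (u / ε)] fun _ => (1 : ℝ) :=
          Filter.eventually_of_mem (Ioi_mem_nhds (show (1 : ℝ) < u / ε by linarith)) fun v hv =>
            Real.smoothTransition.one_of_one_le (le_of_lt hv)
        rw [this.deriv_eq, deriv_const]
      simp only [hF, e, mul_zero, add_zero, Real.smoothTransition.one_of_one_le (by linarith : (1 : ℝ) ≤ u / ε),
        abs_one]
      exact le_max_right _ _
  · have e : deriv Real.smoothTransition (u / ε) = 0 := by
      have : Real.smoothTransition =ᶠ[𝓝 (u / ε)] fun _ => (0 : ℝ) :=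
        Filter.eventually_of_mem (Iio_mem_nhds (show u / ε < 0 by linarith)) fun v hv =>
          Real.smoothTransition.zero_of_nonpos (le_of_lt hv)
      rw [this.deriv_eq, deriv_const]
    simp only [hF, e, mul_zero, add_zero, Real.smoothTransition.zero_of_nonpos (by linarith : u / ε ≤ 0),
      abs_zero]
    exact le_max_of_le_right zero_le_one

/-- The part of a test function above a level of mass at most one half. -/
lemma part_le {C : ℝ} (hC : ∀ ε : ℝ, 0 < ε → ∀ u : ℝ,
      |deriv (fun u => u * Real.smoothTransition (u / ε)) u| ≤ C)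
    {g : Euc n → ℝ} (hg : Test g) (hμ : μ.real {x | 0 < g x} ≤ 1 / 2) :
    ∫ x, (max (g x) 0) ^ 2 ∂μ ≤ 12000000 * K * C ^ 2 * ∫ x, ‖fderiv ℝ g x‖ ^ 2 ∂μ := by
  obtain ⟨M, hM⟩ := hg.bdd
  set ψ := fun ε u : ℝ => u * Real.smoothTransition (u / ε) with hψ
  have hψd : ∀ ε, ContDiff ℝ 1 (ψ ε) := fun ε =>
    contDiff_id.mul (Real.smoothTransition.contDiff.comp (contDiff_id.div_const ε))
  have hψb : ∀ ε u, |ψ ε u| ≤ |u| := fun ε u => by
    simp only [hψ]
    rw [abs_mul, abs_of_nonneg (Real.smoothTransition.nonneg _)]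
    exact mul_le_of_le_one_right (abs_nonneg _) (Real.smoothTransition.le_one _)
  have step : ∀ ε : ℝ, 0 < ε → ∫ x, ψ ε (g x) ^ 2 ∂μ
      ≤ 12000000 * K * C ^ 2 * ∫ x, ‖fderiv ℝ g x‖ ^ 2 ∂μ := by
    intro ε hε
    have hd : ∀ x, fderiv ℝ (fun x => ψ ε (g x)) x = deriv (ψ ε) (g x) • fderiv ℝ g x := fun x =>
      ((((hψd ε).differentiable (by simp) (g x)).hasDerivAt).comp_hasFDerivAt x
        (hg.smooth.differentiable (by simp) x).hasFDerivAt).fderiv
    have ht : Test fun x => ψ ε (g x) := by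
      refine ⟨(hψd ε).comp hg.smooth, ⟨M, fun x => (hψb ε _).trans (hM x)⟩, ?_⟩
      rw [funext hd]
      exact hg.supp.mono' (fun x hx => subset_tsupport _ fun h0 => hx (by simp [h0]))
    have h := tight_gen hK hconc hpost ht (le_trans (measureReal_mono fun x hx => ?_) hμ)
    · refine h.trans ?_
      rw [mul_assoc (12000000 * K) (C ^ 2)]
      refine mul_le_mul_of_nonneg_left ?_ (by positivity)
      rw [← integral_const_mul]
      refine integral_mono (ht.int_sq).2.2 ((hg.int_sq).2.2.const_mul _) fun x => ?_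
      simp only [hd, norm_smul, mul_pow, Real.norm_eq_abs]
      exact mul_le_mul_of_nonneg_right (pow_le_pow_left₀ (abs_nonneg _) (hC ε hε _) 2) (sq_nonneg _)
    · show 0 < g x
      by_contra hc
      refine hx ?_
      simp only [hψ]
      rw [Real.smoothTransition.zero_of_nonpos (div_nonpos_of_nonpos_of_nonneg (not_lt.1 hc) hε.le),
        mul_zero]
  have hlim : Tendsto (fun k : ℕ => ∫ x, ψ (1 / ((k : ℝ) + 1)) (g x) ^ 2 ∂μ) atTop
      (𝓝 (∫ x, (max (g x) 0) ^ 2 ∂μ)) := by
    refine tendsto_integral_of_dominated_convergence (fun _ => M ^ 2)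
      (fun k => (((hψd _).continuous.comp hg.smooth.continuous).pow 2).aestronglyMeasurable)
      (integrable_const _) (fun k => Eventually.of_forall fun x => ?_)
      (Eventually.of_forall fun x => ?_)
    · rw [Real.norm_eq_abs, abs_pow]
      exact pow_le_pow_left₀ (abs_nonneg _) ((hψb _ _).trans (hM x)) 2
    · refine Tendsto.pow ?_ 2
      rcases le_or_gt (g x) 0 with hx | hx
      · rw [max_eq_right hx]
        refine tendsto_const_nhds.congr fun k => ?_
        simp only [hψ]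
        rw [Real.smoothTransition.zero_of_nonpos (div_nonpos_of_nonpos_of_nonneg hx (by positivity)),
          mul_zero]
      · rw [max_eq_left hx.le]
        refine tendsto_const_nhds.congr' ?_
        filter_upwards [(tendsto_one_div_add_atTop_nhds_zero_nat (𝕜 := ℝ)).eventually
          (gt_mem_nhds hx)] with k hk
        simp only [hψ]
        rw [Real.smoothTransition.one_of_one_le ((one_le_div (by positivity)).2 hk.le), mul_one]
  exact le_of_tendsto hlim (Eventually.of_forall fun k => step _ (by positivity))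

omit hK hconc hpost in
/-- From concentration and the posterior inequalities to the logarithmic Sobolev inequality. -/
theorem lsi_of_conc : ∃ C : ℝ, 0 < C ∧ ∀ {n : ℕ} {μ : Measure (Euc n)} [IsProbabilityMeasure μ]
    {K : ℝ}, 0 < K → Conc μ K → PostAll μ (1 / (60000 * K)) →
    ∀ f : Euc n → ℝ, ContDiff ℝ ∞ f → HasCompactSupport f →
      (∫ x, f x ^ 2 * Real.log (f x ^ 2) ∂μ) - (∫ x, f x ^ 2 ∂μ) * Real.log (∫ x, f x ^ 2 ∂μ)
        ≤ C * K * ∫ x, ‖fderiv ℝ f x‖ ^ 2 ∂μ := by
  obtain ⟨C0, hC00, hC0⟩ := exists_trunc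
  refine ⟨4 * 960000 + 267 * (24000000 * C0 ^ 2), by positivity, ?_⟩
  intro n μ _ K hK hconc hpost f hf hfs
  obtain ⟨Mf, hMf⟩ := hf.continuous.bounded_above_of_compact_support hfs
  have hfT : Test f :=
    ⟨hf.of_le (WithTop.coe_le_coe.2 le_top), ⟨Mf, hMf⟩, hfs.fderiv ℝ⟩
  obtain ⟨m, hm1, hm2⟩ := exists_median μ hf.continuous.measurable
  set g := fun x => f x - m with hg
  have hdg : ∀ x, fderiv ℝ g x = fderiv ℝ f x := fun x => fderiv_sub_const m
  have hgT : Test g := by
    refine ⟨hfT.smooth.sub contDiff_const, ⟨Mf + |m|, fun x => ?_⟩, ?_⟩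
    · exact (abs_sub _ _).trans (add_le_add (hMf x) le_rfl)
    · rw [funext hdg]; exact hfT.supp
  obtain ⟨hnT, hdn⟩ := hgT.scale (-1)
  set I := ∫ x, ‖fderiv ℝ f x‖ ^ 2 ∂μ with hI
  have eI : ∫ x, ‖fderiv ℝ g x‖ ^ 2 ∂μ = I := by simp only [hdg, hI]
  have eI' : ∫ x, ‖fderiv ℝ (fun x => -1 * g x) x‖ ^ 2 ∂μ = I := by
    simp only [hdn, norm_smul, norm_neg, norm_one, one_mul, hdg, hI]
  have hfm : MeasurableSet {x | f x ≤ m} := measurableSet_le hf.continuous.measurable measurable_const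
  have hfm' : MeasurableSet {x | m ≤ f x} := measurableSet_le measurable_const hf.continuous.measurable
  have hup := part_le hK hconc hpost hC0 hgT (by
    have e : {x | 0 < g x} = {x | f x ≤ m}ᶜ := by
      ext x; simp only [hg, Set.mem_ofPred_eq, Set.mem_compl_iff, not_le, sub_pos]
    rw [e, probReal_compl_eq_one_sub hfm]; linarith)
  have hdown := part_le hK hconc hpost hC0 hnT (by
    have e : {x | 0 < -1 * g x} = {x | m ≤ f x}ᶜ := by
      ext x; simp only [hg, Set.mem_ofPred_eq, Set.mem_compl_iff, not_le]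
      constructor <;> intro h <;> linarith
    rw [e, probReal_compl_eq_one_sub hfm']; linarith)
  rw [eI] at hup
  rw [eI'] at hdown
  obtain ⟨ig1, ig2, -⟩ := hgT.int_sq (μ := μ)
  obtain ⟨if1, if2, -⟩ := hfT.int_sq (μ := μ)
  set s := ∫ x, g x ^ 2 ∂μ with hsd
  have hs : s ≤ 24000000 * C0 ^ 2 * K * I := by
    have e : s = (∫ x, (max (g x) 0) ^ 2 ∂μ) + ∫ x, (max (-1 * g x) 0) ^ 2 ∂μ := by
      have hb : ∀ h : Euc n → ℝ, Test h → Integrable (fun x => (max (h x) 0) ^ 2) μ := fun h hh =>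
        (hh.int_sq (μ := μ)).1.mono' ((hh.smooth.continuous.max continuous_const).pow 2).aestronglyMeasurable
          (Eventually.of_forall fun x => by
            rw [Real.norm_eq_abs, abs_pow, ← sq_abs (h x)]
            exact pow_le_pow_left₀ (abs_nonneg _) (by
              rcases le_total (h x) 0 with h0 | h0
              · rw [max_eq_right h0, abs_zero]; exact abs_nonneg _
              · rw [max_eq_left h0]) 2)
      rw [hsd, ← integral_add (hb g hgT) (hb _ hnT)]
      refine integral_congr_ae (Eventually.of_forall fun x => ?_)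
      simp only
      rcases le_total (g x) 0 with h0 | h0
      · rw [max_eq_right h0, max_eq_left (by linarith)]; ring
      · rw [max_eq_left h0, max_eq_right (by linarith)]; ring
    linarith
  have hIn : 0 ≤ I := integral_nonneg fun x => sq_nonneg _
  have hdef := defective_gen hK hconc hpost hgT
  rw [eI, ← hsd] at hdef
  set A := ∫ x, f x ^ 2 ∂μ with hA
  have hs0 : 0 ≤ s := integral_nonneg fun x => sq_nonneg (g x)
  rcases hs0.eq_or_lt with h | h
  · have h0 : (fun x => g x ^ 2) =ᵐ[μ] 0 :=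
      (integral_eq_zero_iff_of_nonneg (fun x => sq_nonneg (g x)) ig1).1 h.symm
    have hfm0 : ∀ᵐ x ∂μ, f x = m := by
      filter_upwards [h0] with x hx
      have : g x = 0 := by simpa using hx
      simp only [hg] at this
      linarith
    have e1 : A = m ^ 2 := by
      rw [hA, integral_congr_ae (hfm0.mono fun x hx => by simp only; rw [hx] :
        (fun x => f x ^ 2) =ᵐ[μ] fun _ => m ^ 2)]
      simp
    have e2 : ∫ x, f x ^ 2 * Real.log (f x ^ 2) ∂μ = m ^ 2 * Real.log (m ^ 2) := by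
      rw [integral_congr_ae (hfm0.mono fun x hx => by simp only; rw [hx] :
        (fun x => f x ^ 2 * Real.log (f x ^ 2)) =ᵐ[μ] fun _ => m ^ 2 * Real.log (m ^ 2))]
      simp
    rw [e1, e2, sub_self]
    exact mul_nonneg (mul_nonneg (by positivity) hK.le) hIn
  set c := m ^ 2 + s with hc
  have hc0 : 0 < c := by positivity
  have hpt : ∀ x, f x ^ 2 * Real.log (f x ^ 2) - f x ^ 2 * (Real.log c + 1) + c
      ≤ 4 * (g x ^ 2 * Real.log (g x ^ 2) - g x ^ 2 * Real.log s) + 20 * g x ^ 2 + 7 * s := fun x => by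
    refine le_trans (le_of_eq ?_) (entropy_shift (u := g x) (m := m) h)
    simp only [hg, sub_add_cancel, ← hc]
    rcases eq_or_ne (f x) 0 with hx | hx
    · simp [hx]
    · rw [Real.log_div (pow_ne_zero 2 hx) hc0.ne']; ring
  have hint := integral_mono (μ := μ) ((if2.sub (if1.mul_const _)).add (integrable_const c))
    (((((ig2.sub (ig1.mul_const (Real.log s)))).const_mul 4).add (ig1.const_mul 20)).add
      (integrable_const (7 * s))) hpt
  have eL : ∫ x, f x ^ 2 * Real.log (f x ^ 2) - f x ^ 2 * (Real.log c + 1) + c ∂μ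
      = (∫ x, f x ^ 2 * Real.log (f x ^ 2) ∂μ) - A * (Real.log c + 1) + c := by
    have hsub : Integrable (fun x => f x ^ 2 * Real.log (f x ^ 2) - f x ^ 2 * (Real.log c + 1)) μ :=
      if2.sub (if1.mul_const _)
    rw [integral_add hsub (integrable_const _), integral_sub if2 (if1.mul_const _),
      integral_mul_const, integral_const]
    simp [hA]
  have eR : ∫ x, 4 * (g x ^ 2 * Real.log (g x ^ 2) - g x ^ 2 * Real.log s) + 20 * g x ^ 2 + 7 * s ∂μ
      = 4 * ((∫ x, g x ^ 2 * Real.log (g x ^ 2) ∂μ) - s * Real.log s) + 27 * s := by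
    have h1 : Integrable (fun x => g x ^ 2 * Real.log (g x ^ 2) - g x ^ 2 * Real.log s) μ :=
      ig2.sub (ig1.mul_const _)
    have h2 : Integrable (fun x =>
        4 * (g x ^ 2 * Real.log (g x ^ 2) - g x ^ 2 * Real.log s) + 20 * g x ^ 2) μ :=
      (h1.const_mul 4).add (ig1.const_mul 20)
    rw [integral_add h2 (integrable_const _), integral_add (h1.const_mul 4) (ig1.const_mul 20),
      integral_const_mul, integral_const_mul, integral_sub ig2 (ig1.mul_const _),
      integral_mul_const, integral_const, ← hsd]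
    simp; ring
  simp only [Pi.add_apply, Pi.sub_apply] at hint
  rw [eL, eR] at hint
  have hAc : A * Real.log c + A - c ≤ A * Real.log A := by
    have hA0 : 0 ≤ A := integral_nonneg fun x => sq_nonneg (f x)
    rcases hA0.eq_or_lt with h0 | h0
    · rw [← h0]; simp; exact hc0.le
    · have := mul_le_mul_of_nonneg_left (Real.log_le_sub_one_of_pos (div_pos hc0 h0)) h0.le
      rw [Real.log_div hc0.ne' h0.ne', mul_sub, mul_sub, mul_one, mul_div_cancel₀ _ h0.ne'] at this
      linarith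
  linarith

end Vale.Agent.P245.LSI
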