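import Mathlib
import Vale.Agent.P245.LSI.Assemble

/-!
The logarithmic Sobolev inequality with constant `O(a² n^(4/9))`, given the posterior inequalities.
-/

open MeasureTheory Filter Set
open scoped ContDiff RealInnerProductSpace Topology ENNReal NNReal
open Vale.Agent.P245.Sub

namespace Vale.Agent.P245.LSI

variable {n : ℕ}

/-- Two-set concentration at scale `a² n^(4/9)`. -/
lemma conc_subgaussian (n : ℕ) (ρ : Euc n → ℝ) (a : ℝ) (hρm : Measurable ρ) (hρ0 : ∀ x, 0 ≤ ρ x)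
    (hmid : ∀ x y, ρ x * ρ y ≤ ρ ((2 : ℝ)⁻¹ • (x + y)) ^ 2) (μ : Measure (Euc n))
    [IsProbabilityMeasure μ]
    (hμ : μ = volume.withDensity fun x => ENNReal.ofReal (ρ x)) (ha : 0 < a)
    (hsub : ∀ θ : Euc n, ‖θ‖ = 1 →
      ∫⁻ x, ENNReal.ofReal (Real.exp (⟪x, θ⟫ ^ 2 / a ^ 2)) ∂μ ≤ 2) :
    Conc μ (4 * (3 * 10 ^ 9 * (a ^ 2 * (n : ℝ) ^ ((4 : ℝ) / 9)))) := by
  refine conc_of_median fun g hg m hm r hr => ?_
  have hm' : 1 / 2 ≤ μ {x | g x ≤ m} := by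
    have e : (1 / 2 : ℝ≥0∞) = ENNReal.ofReal (1 / 2) := by
      rw [ENNReal.ofReal_div_of_pos two_pos, ENNReal.ofReal_one, ENNReal.ofReal_ofNat]
    rw [e, ENNReal.ofReal_le_iff_le_toReal (measure_ne_top _ _)]
    exact hm
  have h := combined n ρ a hρm hρ0 hmid μ hμ measure_univ ha hsub g hg m hm' r hr
  have h2 := ENNReal.toReal_le_of_le_ofReal (Real.exp_pos _).le h
  refine le_trans h2 (Real.exp_le_exp.2 ?_)
  rw [sub_le_sub_iff_left, mul_comm (3 * 10 ^ 9 : ℝ), ← div_div]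
  gcongr
  exact le_max_of_le_left (le_max_left _ _)

/-- The logarithmic Sobolev inequality with constant `O(a² n^(4/9))`. -/
theorem lsi_main
    (hpost : ∀ {n : ℕ} {ρ : Euc n → ℝ}, Measurable ρ → (∀ x, 0 ≤ ρ x) →
      (∀ x y, ρ x * ρ y ≤ ρ ((2 : ℝ)⁻¹ • (x + y)) ^ 2) →
      ∀ {μ : Measure (Euc n)} [IsProbabilityMeasure μ],
      μ = volume.withDensity (fun x => ENNReal.ofReal (ρ x)) → ∀ {τ : ℝ}, 0 < τ → PostAll μ τ) :
    ∃ C : ℝ, 0 < C ∧ ∀ (n : ℕ) (ρ : Euc n → ℝ) (a : ℝ), Measurable ρ → (∀ x, 0 ≤ ρ x) →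
      (∀ x y, ρ x * ρ y ≤ ρ ((2 : ℝ)⁻¹ • (x + y)) ^ 2) →
      ∀ (μ : Measure (Euc n)), μ = volume.withDensity (fun x => ENNReal.ofReal (ρ x)) →
      μ Set.univ = 1 → 0 < a →
      (∀ θ : Euc n, ‖θ‖ = 1 → ∫⁻ x, ENNReal.ofReal (Real.exp (⟪x, θ⟫ ^ 2 / a ^ 2)) ∂μ ≤ 2) →
      ∀ f : Euc n → ℝ, ContDiff ℝ ∞ f → HasCompactSupport f →
        (∫ x, f x ^ 2 * Real.log (f x ^ 2) ∂μ) - (∫ x, f x ^ 2 ∂μ) * Real.log (∫ x, f x ^ 2 ∂μ)
          ≤ C * a ^ 2 * (n : ℝ) ^ ((4 : ℝ) / 9) * ∫ x, ‖fderiv ℝ f x‖ ^ 2 ∂μ := by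
  obtain ⟨C, hC, hlsi⟩ := lsi_of_conc
  refine ⟨C * (12 * 10 ^ 9), by positivity, ?_⟩
  intro n ρ a hρm hρ0 hmid μ hμ hμ1 ha hsub f hf hfs
  haveI : IsProbabilityMeasure μ := ⟨hμ1⟩
  rcases Nat.eq_zero_or_pos n with rfl | hn
  · have e : ∀ x : Euc 0, f x = f 0 := fun x => by rw [Subsingleton.elim x 0]
    have e1 : ∫ x, f x ^ 2 * Real.log (f x ^ 2) ∂μ = f 0 ^ 2 * Real.log (f 0 ^ 2) :=
      (integral_congr_ae (g := fun _ : Euc 0 => f 0 ^ 2 * Real.log (f 0 ^ 2))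
        (Eventually.of_forall fun x => by show _ = f 0 ^ 2 * Real.log (f 0 ^ 2); rw [← e x])).trans
        (by rw [integral_const, probReal_univ, one_smul])
    have e2 : ∫ x, f x ^ 2 ∂μ = f 0 ^ 2 :=
      (integral_congr_ae (g := fun _ : Euc 0 => f 0 ^ 2)
        (Eventually.of_forall fun x => by show _ = f 0 ^ 2; rw [← e x])).trans
        (by rw [integral_const, probReal_univ, one_smul])
    rw [e1, e2, sub_self]
    exact mul_nonneg (by positivity) (integral_nonneg fun x => sq_nonneg _)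
  have hn0 : (0 : ℝ) < n := by exact_mod_cast hn
  have hK : 0 < 4 * (3 * 10 ^ 9 * (a ^ 2 * (n : ℝ) ^ ((4 : ℝ) / 9))) := by positivity
  refine (hlsi hK (conc_subgaussian n ρ a hρm hρ0 hmid μ hμ ha hsub)
    (hpost hρm hρ0 hmid hμ (by positivity)) f hf hfs).trans (le_of_eq ?_)
  ring

end Vale.Agent.P245.LSI
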