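import Mathlib
import Vale.Agent.P245.Gauss

/-!
Prékopa–Leindler with weights `(1 - s, s)`: on the line, for product measures, linear images,
and scaled Gaussian measures.
-/

open MeasureTheory ProbabilityTheory Set
open scoped ENNReal RealInnerProductSpace
open Vale.Agent.P262.Gauss

namespace Vale.Agent.P245.LSI

variable {s : ℝ}

/-- Weighted arithmetic-geometric mean inequality. -/
lemma amgm_lam (hs0 : 0 < s) (hs1 : s < 1) (a b : ℝ≥0∞) :
    a ^ (1 - s) * b ^ s ≤ ENNReal.ofReal (1 - s) * a + ENNReal.ofReal s * b := by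
  have h1 : ENNReal.ofReal (1 - s) ≠ 0 := by simp [hs1]
  have h2 : ENNReal.ofReal s ≠ 0 := by simp [hs0]
  rcases eq_or_ne a ⊤ with rfl | ha
  · simp [ENNReal.mul_top h1]
  rcases eq_or_ne b ⊤ with rfl | hb
  · simp [ENNReal.mul_top h2]
  rw [← ENNReal.ofReal_toReal ha, ← ENNReal.ofReal_toReal hb,
    ENNReal.ofReal_rpow_of_nonneg ENNReal.toReal_nonneg (by linarith),
    ENNReal.ofReal_rpow_of_nonneg ENNReal.toReal_nonneg hs0.le,
    ← ENNReal.ofReal_mul (Real.rpow_nonneg ENNReal.toReal_nonneg _),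
    ← ENNReal.ofReal_mul (by linarith), ← ENNReal.ofReal_mul hs0.le,
    ← ENNReal.ofReal_add (mul_nonneg (by linarith) ENNReal.toReal_nonneg)
      (mul_nonneg hs0.le ENNReal.toReal_nonneg)]
  exact ENNReal.ofReal_le_ofReal (Real.geom_mean_le_arith_mean2_weighted (by linarith) hs0.le
    ENNReal.toReal_nonneg ENNReal.toReal_nonneg (by ring))

/-- One-dimensional Brunn–Minkowski inequality with weights. -/
lemma bm_lam (hs0 : 0 < s) (hs1 : s < 1) {A B C : Set ℝ} (hA : MeasurableSet A)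
    (hB : MeasurableSet B) (hA0 : A.Nonempty) (hB0 : B.Nonempty)
    (h : ∀ a ∈ A, ∀ b ∈ B, (1 - s) * a + s * b ∈ C) :
    ENNReal.ofReal (1 - s) * volume A + ENNReal.ofReal s * volume B ≤ volume C := by
  have vol : ∀ (t : ℝ) (T : Set ℝ), 0 < t →
      volume ((fun x => t⁻¹ * x) ⁻¹' T) = ENNReal.ofReal t * volume T := by
    intro t T ht
    rw [Real.volume_preimage_mul_left (inv_ne_zero ht.ne'), inv_inv, abs_of_pos ht]
  have h2 := bm_half (A := (fun x => (1 - s)⁻¹ * x) ⁻¹' A) (B := (fun x => s⁻¹ * x) ⁻¹' B)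
    (C := (fun x => ((2 : ℝ)⁻¹)⁻¹ * x) ⁻¹' C)
    (hA.preimage (by fun_prop)) (hB.preimage (by fun_prop))
    (hA0.elim fun a ha => ⟨(1 - s) * a, by
      show (1 - s)⁻¹ * ((1 - s) * a) ∈ A
      rwa [inv_mul_cancel_left₀ (by linarith)]⟩)
    (hB0.elim fun b hb => ⟨s * b, by
      show s⁻¹ * (s * b) ∈ B
      rwa [inv_mul_cancel_left₀ hs0.ne']⟩)
    fun a ha b hb => by
      have := h _ ha _ hb
      rw [mul_inv_cancel_left₀ (by linarith), mul_inv_cancel_left₀ hs0.ne'] at this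
      show ((2 : ℝ)⁻¹)⁻¹ * ((a + b) / 2) ∈ C
      rwa [inv_inv, show (2 : ℝ) * ((a + b) / 2) = a + b by ring]
  rw [vol _ _ (by linarith), vol _ _ hs0, vol _ _ (by norm_num), ← mul_assoc] at h2
  have e : (2 : ℝ≥0∞) * ENNReal.ofReal (2 : ℝ)⁻¹ = 1 := by
    rw [show (2 : ℝ≥0∞) = ENNReal.ofReal 2 by simp, ← ENNReal.ofReal_mul (by norm_num)]
    norm_num
  rwa [e, one_mul] at h2

/-- Prékopa–Leindler with weights on the line, bounded functions. -/
lemma pl_line_bdd (hs0 : 0 < s) (hs1 : s < 1) {f g h : ℝ → ℝ} (hf : Measurable f)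
    (hg : Measurable g) (hh : Measurable h) (hf0 : ∀ x, 0 ≤ f x) (hg0 : ∀ x, 0 ≤ g x)
    (hh0 : ∀ x, 0 ≤ h x) (hfb : BddAbove (range f)) (hgb : BddAbove (range g))
    (hfg : ∀ x y, f x ^ (1 - s) * g y ^ s ≤ h ((1 - s) * x + s * y)) :
    (∫⁻ x, ENNReal.ofReal (f x)) ^ (1 - s) * (∫⁻ x, ENNReal.ofReal (g x)) ^ s
      ≤ ∫⁻ x, ENNReal.ofReal (h x) := by
  have hs1' : 0 < 1 - s := by linarith
  set sf := ⨆ x, f x
  set sg := ⨆ x, g x
  have hsf : ∀ x, f x ≤ sf := le_ciSup hfb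
  have hsg : ∀ x, g x ≤ sg := le_ciSup hgb
  rcases le_or_gt sf 0 with hsf0 | hsf0
  · have : ∀ x, ENNReal.ofReal (f x) = 0 := fun x =>
      ENNReal.ofReal_of_nonpos ((hsf x).trans hsf0)
    simp [this, ENNReal.zero_rpow_of_pos hs1']
  rcases le_or_gt sg 0 with hsg0 | hsg0
  · have : ∀ x, ENNReal.ofReal (g x) = 0 := fun x =>
      ENNReal.ofReal_of_nonpos ((hsg x).trans hsg0)
    simp [this, ENNReal.zero_rpow_of_pos hs0]
  set r := sf ^ (1 - s) * sg ^ s with hr_def
  have hr : 0 < r := mul_pos (Real.rpow_pos_of_pos hsf0 _) (Real.rpow_pos_of_pos hsg0 _)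
  have scale : ∀ (k : ℝ → ℝ) (c : ℝ), Measurable k → 0 < c →
      ∫⁻ x, ENNReal.ofReal (k x) = ENNReal.ofReal c * ∫⁻ x, ENNReal.ofReal (k x / c) := by
    intro k c hk hc
    rw [← lintegral_const_mul _ (by fun_prop)]
    refine lintegral_congr fun x => ?_
    rw [← ENNReal.ofReal_mul hc.le]
    congr 1
    field_simp
  have cake : ∀ k : ℝ → ℝ, Measurable k → (∀ x, 0 ≤ k x) →
      ∫⁻ x, ENNReal.ofReal (k x) = ∫⁻ t in Ioi (0 : ℝ), volume {x | t < k x} := fun k hk hk0 =>
    lintegral_eq_lintegral_meas_lt volume (Filter.Eventually.of_forall hk0) hk.aemeasurable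
  have main : ENNReal.ofReal (1 - s) * (∫⁻ x, ENNReal.ofReal (f x / sf))
      + ENNReal.ofReal s * (∫⁻ x, ENNReal.ofReal (g x / sg))
      ≤ ∫⁻ x, ENNReal.ofReal (h x / r) := by
    rw [cake _ (hf.div_const _) (fun x => div_nonneg (hf0 x) hsf0.le),
      cake _ (hg.div_const _) (fun x => div_nonneg (hg0 x) hsg0.le),
      cake _ (hh.div_const _) (fun x => div_nonneg (hh0 x) hr.le),
      ← lintegral_const_mul' _ _ ENNReal.ofReal_ne_top,
      ← lintegral_const_mul' _ _ ENNReal.ofReal_ne_top]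
    refine (lintegral_add_left ?_ _).symm.le.trans
      (setLIntegral_mono' measurableSet_Ioi fun t ht => ?_)
    · have ha : Antitone fun t : ℝ => volume {x | t < f x / sf} := fun u v huv =>
        measure_mono fun x hx => lt_of_le_of_lt huv hx
      exact ha.measurable.const_mul _
    rcases le_or_gt 1 t with ht1 | ht1
    · have h1 : {x | t < f x / sf} = ∅ := by
        ext x
        simp only [mem_ofPred_eq, mem_empty_iff_false, iff_false, not_lt]
        exact ((div_le_one hsf0).2 (hsf x)).trans ht1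
      have h2 : {x | t < g x / sg} = ∅ := by
        ext x
        simp only [mem_ofPred_eq, mem_empty_iff_false, iff_false, not_lt]
        exact ((div_le_one hsg0).2 (hsg x)).trans ht1
      simp [h1, h2]
    · have ht0 : 0 < t := ht
      obtain ⟨x0, hx0⟩ := exists_lt_of_lt_ciSup (show t * sf < sf by nlinarith)
      obtain ⟨y0, hy0⟩ := exists_lt_of_lt_ciSup (show t * sg < sg by nlinarith)
      refine bm_lam hs0 hs1 (measurableSet_lt measurable_const (hf.div_const _))
        (measurableSet_lt measurable_const (hg.div_const _))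
        ⟨x0, (lt_div_iff₀ hsf0).2 hx0⟩ ⟨y0, (lt_div_iff₀ hsg0).2 hy0⟩ fun a ha b hb => ?_
      have ha' : t < f a / sf := ha
      have hb' : t < g b / sg := hb
      show t < h ((1 - s) * a + s * b) / r
      calc t = t ^ (1 - s) * t ^ s := by
            rw [← Real.rpow_add ht0, sub_add_cancel, Real.rpow_one]
        _ < (f a / sf) ^ (1 - s) * (g b / sg) ^ s :=
            mul_lt_mul'' (Real.rpow_lt_rpow ht0.le ha' hs1') (Real.rpow_lt_rpow ht0.le hb' hs0)
              (Real.rpow_nonneg ht0.le _) (Real.rpow_nonneg ht0.le _)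
        _ ≤ _ := by
            rw [Real.div_rpow (hf0 a) hsf0.le, Real.div_rpow (hg0 b) hsg0.le, div_mul_div_comm,
              ← hr_def]
            exact div_le_div_of_nonneg_right (hfg a b) hr.le
  rw [scale f sf hf hsf0, scale g sg hg hsg0, scale h r hh hr,
    ENNReal.mul_rpow_of_nonneg _ _ hs1'.le, ENNReal.mul_rpow_of_nonneg _ _ hs0.le,
    ENNReal.ofReal_rpow_of_nonneg hsf0.le hs1'.le, ENNReal.ofReal_rpow_of_nonneg hsg0.le hs0.le,
    mul_mul_mul_comm, ← ENNReal.ofReal_mul (Real.rpow_nonneg hsf0.le _), ← hr_def]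
  gcongr
  exact (amgm_lam hs0 hs1 _ _).trans main

/-- Log-concavity of a measure with weights `(1 - s, s)` (Prékopa–Leindler form). -/
def WLC (s : ℝ) {α : Type*} [AddCommGroup α] [Module ℝ α] [MeasurableSpace α]
    (μ : Measure α) : Prop :=
  ∀ f g h : α → ℝ≥0∞, Measurable f → Measurable g → Measurable h →
    (∀ x y, f x ^ (1 - s) * g y ^ s ≤ h ((1 - s) • x + s • y)) →
    (∫⁻ x, f x ∂μ) ^ (1 - s) * (∫⁻ x, g x ∂μ) ^ s ≤ ∫⁻ x, h x ∂μ

lemma wlc_volume (hs0 : 0 < s) (hs1 : s < 1) : WLC s (volume : Measure ℝ) := by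
  intro f g h hf hg hh hfg
  have hs1' : 0 < 1 - s := by linarith
  set T : (ℝ → ℝ≥0∞) → ℕ → ℝ → ℝ≥0∞ := fun k N x => min (k x) N
  have Tm : ∀ (k : ℝ → ℝ≥0∞), Measurable k → ∀ N, Measurable (T k N) := fun k hk N =>
    hk.min measurable_const
  have Tne : ∀ (k : ℝ → ℝ≥0∞) N x, T k N x ≠ ⊤ := fun k N x =>
    ne_top_of_le_ne_top (ENNReal.natCast_ne_top N) (min_le_right _ _)
  have Tmono : ∀ (k : ℝ → ℝ≥0∞), Monotone (T k) := fun k N M hNM x =>
    min_le_min_left _ (by exact_mod_cast hNM)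
  have Tsup : ∀ (k : ℝ → ℝ≥0∞), Measurable k →
      ∫⁻ x, k x = ⨆ N, ∫⁻ x, T k N x := by
    intro k hk
    rw [← lintegral_iSup (Tm k hk) (Tmono k)]
    refine lintegral_congr fun x => ?_
    show k x = ⨆ N : ℕ, k x ⊓ (N : ℝ≥0∞)
    rw [← inf_iSup_eq, ENNReal.iSup_natCast, inf_top_eq]
  have step : ∀ N, (∫⁻ x, T f N x) ^ (1 - s) * (∫⁻ x, T g N x) ^ s ≤ ∫⁻ x, h x := by
    intro N
    have hb : ∀ k : ℝ → ℝ≥0∞, BddAbove (range fun x => (T k N x).toReal) := by
      intro k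
      refine ⟨(N : ℝ≥0∞).toReal, ?_⟩
      rintro _ ⟨x, rfl⟩
      exact ENNReal.toReal_mono (ENNReal.natCast_ne_top N) (min_le_right _ _)
    have := pl_line_bdd hs0 hs1 (Tm f hf N).ennreal_toReal (Tm g hg N).ennreal_toReal
      (Tm h hh N).ennreal_toReal (fun _ => ENNReal.toReal_nonneg) (fun _ => ENNReal.toReal_nonneg)
      (fun _ => ENNReal.toReal_nonneg) (hb f) (hb g) fun x y => by
        rw [ENNReal.toReal_rpow, ENNReal.toReal_rpow, ← ENNReal.toReal_mul]
        refine ENNReal.toReal_mono (Tne h N _) (le_min ?_ ?_)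
        · calc T f N x ^ (1 - s) * T g N y ^ s ≤ f x ^ (1 - s) * g y ^ s := by
                gcongr <;> exact min_le_left _ _
            _ ≤ _ := by simpa using hfg x y
        · calc T f N x ^ (1 - s) * T g N y ^ s ≤ (N : ℝ≥0∞) ^ (1 - s) * (N : ℝ≥0∞) ^ s := by
                gcongr <;> exact min_le_right _ _
            _ = N := by
                rw [← ENNReal.rpow_add_of_nonneg _ _ hs1'.le hs0.le, sub_add_cancel,
                  ENNReal.rpow_one]
    simp only [ENNReal.ofReal_toReal (Tne _ _ _)] at this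
    exact this.trans (lintegral_mono fun x => min_le_left _ _)
  rw [Tsup f hf, Tsup g hg]
  have esup : ∀ (p : ℝ) (hp : 0 < p) (a : ℕ → ℝ≥0∞), (⨆ N, a N) ^ p = ⨆ N, a N ^ p :=
    fun p hp a => (ENNReal.orderIsoRpow p hp).map_iSup a
  rw [esup _ hs1', esup _ hs0, ENNReal.iSup_mul]
  refine iSup_le fun N => ?_
  rw [ENNReal.mul_iSup]
  refine iSup_le fun M => ?_
  refine le_trans ?_ (step (max N M))
  gcongr
  · exact Tmono f (le_max_left N M) _
  · exact Tmono g (le_max_right N M) _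

lemma dens_rpow_le (hs0 : 0 < s) (hs1 : s < 1) (x y : ℝ) :
    dens x ^ (1 - s) * dens y ^ s ≤ dens ((1 - s) * x + s * y) := by
  rw [dens_eq, dens_eq, dens_eq]
  have hc : 0 < (Real.sqrt (2 * Real.pi))⁻¹ := by positivity
  rw [Real.mul_rpow hc.le (Real.exp_pos _).le, Real.mul_rpow hc.le (Real.exp_pos _).le,
    mul_mul_mul_comm, ← Real.rpow_add hc, sub_add_cancel, Real.rpow_one, ← Real.exp_mul,
    ← Real.exp_mul, ← Real.exp_add]
  refine mul_le_mul_of_nonneg_left (Real.exp_le_exp.2 ?_) hc.le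
  nlinarith [mul_nonneg (mul_nonneg hs0.le (by linarith : (0 : ℝ) ≤ 1 - s)) (sq_nonneg (x - y))]

lemma wlc_gaussianReal (hs0 : 0 < s) (hs1 : s < 1) : WLC s (gaussianReal 0 1) := by
  intro f g h hf hg hh hfg
  have hd := measurable_dens.ennreal_ofReal
  rw [lintegral_gaussian hf, lintegral_gaussian hg, lintegral_gaussian hh]
  refine wlc_volume hs0 hs1 _ _ _ (hd.mul hf) (hd.mul hg) (hd.mul hh) fun x y => ?_
  simp only [smul_eq_mul]
  rw [ENNReal.mul_rpow_of_nonneg _ _ (by linarith), ENNReal.mul_rpow_of_nonneg _ _ hs0.le,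
    mul_mul_mul_comm, ENNReal.ofReal_rpow_of_nonneg (dens_nonneg _) (by linarith),
    ENNReal.ofReal_rpow_of_nonneg (dens_nonneg _) hs0.le,
    ← ENNReal.ofReal_mul (Real.rpow_nonneg (dens_nonneg _) _)]
  exact mul_le_mul' (ENNReal.ofReal_le_ofReal (dens_rpow_le hs0 hs1 x y))
    (by simpa using hfg x y)

variable {α β : Type*} [AddCommGroup α] [Module ℝ α] [MeasurableSpace α]
  [AddCommGroup β] [Module ℝ β] [MeasurableSpace β]

lemma WLC.prod {μ : Measure α} {ν : Measure β} [SFinite μ] [SFinite ν]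
    (hμ : WLC s μ) (hν : WLC s ν) : WLC s (μ.prod ν) := by
  intro f g h hf hg hh hfg
  rw [lintegral_prod _ hf.aemeasurable, lintegral_prod _ hg.aemeasurable,
    lintegral_prod _ hh.aemeasurable]
  refine hμ _ _ _ hf.lintegral_prod_right' hg.lintegral_prod_right' hh.lintegral_prod_right'
    fun x x' => ?_
  exact hν _ _ _ (hf.comp measurable_prodMk_left) (hg.comp measurable_prodMk_left)
    (hh.comp measurable_prodMk_left) fun y y' => by simpa using hfg (x, y) (x', y')

lemma WLC.map {μ : Measure α} (hμ : WLC s μ) (L : α →ₗ[ℝ] β) (hL : Measurable L) :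
    WLC s (μ.map L) := by
  intro f g h hf hg hh hfg
  rw [lintegral_map hf hL, lintegral_map hg hL, lintegral_map hh hL]
  exact hμ _ _ _ (hf.comp hL) (hg.comp hL) (hh.comp hL)
    fun x y => by simpa [map_add, map_smul] using hfg (L x) (L y)

lemma wlc_gpi (hs0 : 0 < s) (hs1 : s < 1) (n : ℕ) : WLC s (gpi n) := by
  induction n with
  | zero =>
    intro f g h _ _ _ hfg
    have e : ∀ k : (Fin 0 → ℝ) → ℝ≥0∞, ∫⁻ x, k x ∂(gpi 0) = k 0 := fun k => by
      rw [lintegral_unique, measure_univ, mul_one]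
      exact congrArg k (Subsingleton.elim _ _)
    simpa [e] using hfg 0 0
  | succ n ih =>
    rw [← map_cons_gpi n]
    let L : ℝ × (Fin n → ℝ) →ₗ[ℝ] (Fin (n + 1) → ℝ) :=
      { toFun := fun p => Fin.cons p.1 p.2
        map_add' := fun p q => by
          funext i; refine Fin.cases ?_ (fun j => ?_) i <;> simp
        map_smul' := fun c p => by
          funext i; refine Fin.cases ?_ (fun j => ?_) i <;> simp }
    refine ((wlc_gaussianReal hs0 hs1).prod ih).map L ?_
    refine measurable_pi_lambda _ fun i => ?_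
    refine Fin.cases ?_ (fun j => ?_) i
    · simpa [L] using measurable_fst
    · simpa [L, Function.comp_def] using (measurable_pi_apply j).comp measurable_snd

/-- Prékopa–Leindler with weights `(1 - s, s)` for scaled Gaussian measures. -/
theorem pl_lam (n : ℕ) {s : ℝ} (hs0 : 0 < s) (hs1 : s < 1) (σ : ℝ) {F G H : Euc n → ℝ≥0∞}
    (hF : Measurable F) (hG : Measurable G) (hH : Measurable H)
    (h : ∀ x y, F x ^ (1 - s) * G y ^ s ≤ H ((1 - s) • x + s • y)) :
    (∫⁻ x, F x ∂((gam n).map fun x => σ • x)) ^ (1 - s)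
      * (∫⁻ x, G x ∂((gam n).map fun x => σ • x)) ^ s
      ≤ ∫⁻ x, H x ∂((gam n).map fun x => σ • x) := by
  have h1 : WLC s (gam n) :=
    (wlc_gpi hs0 hs1 n).map (WithLp.linearEquiv 2 ℝ (Fin n → ℝ)).symm.toLinearMap
      (measurable_toLp' n)
  exact h1.map (σ • LinearMap.id) (by
    show Measurable fun x : Euc n => σ • x
    fun_prop) F G H hF hG hH h

end Vale.Agent.P245.LSI
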