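import Mathlib
import Vale.Agent.P245.LSI.Channel
import Vale.Agent.P245.LSI.PLLam

/-!
Log-Sobolev inequality for the posterior of the Gaussian channel of a midpoint log-concave measure,
by the Bobkov–Ledoux argument from the weighted Prékopa–Leindler inequality.
-/

open MeasureTheory Filter Set
open scoped ENNReal RealInnerProductSpace Topology
open Vale.Agent.P245.Sub

namespace Vale.Agent.P245.LSI

variable {n : ℕ}

lemma rho_dyadic {ρ : Euc n → ℝ} (hρ0 : ∀ x, 0 ≤ ρ x)
    (hmid : ∀ x y, ρ x * ρ y ≤ ρ ((2 : ℝ)⁻¹ • (x + y)) ^ 2) :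
    ∀ (k : ℕ) (x x' : Euc n), ρ x ^ (1 - ((2 : ℝ)⁻¹) ^ k) * ρ x' ^ (((2 : ℝ)⁻¹) ^ k)
      ≤ ρ ((1 - ((2 : ℝ)⁻¹) ^ k) • x + (((2 : ℝ)⁻¹) ^ k) • x') := by
  intro k
  induction k with
  | zero => intro x x'; simp
  | succ k ih =>
    intro x x'
    set s := ((2 : ℝ)⁻¹) ^ k with hs
    have hs0 : 0 < s := by rw [hs]; positivity
    have hs1 : s ≤ 1 := pow_le_one₀ (by norm_num) (by norm_num)
    have hs' : ((2 : ℝ)⁻¹) ^ (k + 1) = s * 2⁻¹ := by rw [pow_succ]
    rw [hs']
    set z := (1 - s) • x + s • x' with hz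
    have hz' : (1 - s * 2⁻¹) • x + (s * 2⁻¹) • x' = (2 : ℝ)⁻¹ • (x + z) := by
      rw [hz]; module
    rw [hz']
    calc ρ x ^ (1 - s * 2⁻¹) * ρ x' ^ (s * 2⁻¹)
        = (ρ x * (ρ x ^ (1 - s) * ρ x' ^ s)) ^ ((2 : ℝ)⁻¹) := by
          rw [Real.mul_rpow (hρ0 x) (mul_nonneg (Real.rpow_nonneg (hρ0 x) _)
              (Real.rpow_nonneg (hρ0 x') _)),
            Real.mul_rpow (Real.rpow_nonneg (hρ0 x) _) (Real.rpow_nonneg (hρ0 x') _),
            ← Real.rpow_mul (hρ0 x), ← Real.rpow_mul (hρ0 x'), ← mul_assoc,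
            ← Real.rpow_add' (hρ0 x) (by intro h; nlinarith),
            show (2 : ℝ)⁻¹ + (1 - s) * 2⁻¹ = 1 - s * 2⁻¹ by ring]
      _ ≤ (ρ x * ρ z) ^ ((2 : ℝ)⁻¹) := by
          refine Real.rpow_le_rpow (mul_nonneg (hρ0 x) (mul_nonneg (Real.rpow_nonneg (hρ0 x) _)
            (Real.rpow_nonneg (hρ0 x') _))) ?_ (by norm_num)
          exact mul_le_mul_of_nonneg_left (ih x x') (hρ0 x)
      _ ≤ (ρ ((2 : ℝ)⁻¹ • (x + z)) ^ 2) ^ ((2 : ℝ)⁻¹) :=
          Real.rpow_le_rpow (mul_nonneg (hρ0 x) (hρ0 z)) (hmid x z) (by norm_num)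
      _ = _ := by
          simpa using Real.pow_rpow_inv_natCast (hρ0 ((2 : ℝ)⁻¹ • (x + z))) two_ne_zero

lemma quad_split (s : ℝ) (x x' : Euc n) :
    (1 - s) * ‖x‖ ^ 2 + s * ‖x'‖ ^ 2
      = ‖(1 - s) • x + s • x'‖ ^ 2 + (1 - s) * s * ‖x - x'‖ ^ 2 := by
  rw [norm_add_sq_real, norm_sub_sq_real, norm_smul, norm_smul, real_inner_smul_left,
    real_inner_smul_right, mul_pow, mul_pow, Real.norm_eq_abs, Real.norm_eq_abs, sq_abs, sq_abs]
  ring

variable {ρ : Euc n → ℝ} {μ : Measure (Euc n)} [IsProbabilityMeasure μ] {τ : ℝ}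

/-- The weighted Prékopa–Leindler inequality for the posterior. -/
lemma post_gain (hρm : Measurable ρ) (hρ0 : ∀ x, 0 ≤ ρ x)
    (hμ : μ = volume.withDensity fun x => ENNReal.ofReal (ρ x)) (hτ : 0 < τ) (y : Euc n)
    {s : ℝ} (hs0 : 0 < s) (hs1 : s < 1)
    (hρs : ∀ x x', ρ x ^ (1 - s) * ρ x' ^ s ≤ ρ ((1 - s) • x + s • x'))
    {φ Φ : Euc n → ℝ} (hφ : Measurable φ) (hΦ : Measurable Φ) {B : ℝ} (hφB : ∀ x, |φ x| ≤ B)
    {B' : ℝ} (hΦB : ∀ x, |Φ x| ≤ B')
    (h : ∀ x x', φ x - τ / 4 * (s * (1 - s)) * ‖x - x'‖ ^ 2 ≤ Φ ((1 - s) • x + s • x')) :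
    (chT μ τ (fun x => Real.exp (φ x / (1 - s))) y / chT μ τ (fun _ => 1) y) ^ (1 - s)
      ≤ chT μ τ (fun x => Real.exp (Φ x)) y / chT μ τ (fun _ => 1) y := by
  have hs1' : 0 < 1 - s := by linarith
  set a := τ / 2 with ha
  have ha0 : 0 < a := by rw [ha]; linarith
  set C := gconst n * ENNReal.ofReal (Real.sqrt a ^ n) with hC
  have hC0 : C ≠ 0 := mul_ne_zero (gconst_ne n).1 (by
    rw [Ne, ENNReal.ofReal_eq_zero, not_le]; positivity)
  have hCt : C ≠ ⊤ := ENNReal.mul_ne_top (gconst_ne n).2 ENNReal.ofReal_ne_top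
  set ν := (gam n).map fun x => (Real.sqrt a)⁻¹ • x with hν
  set c0 := (Real.sqrt (2 * Real.pi))⁻¹ ^ n * Real.sqrt τ ^ n with hc0
  have hc00 : 0 < c0 := by rw [hc0]; positivity
  set E := fun x : Euc n => -(τ * ‖x - y‖ ^ 2) / 2 + a * ‖x‖ ^ 2 / 2 with hE
  set ψ := fun x : Euc n => ρ x * (c0 * Real.exp (E x)) with hψ
  have hψm : Measurable ψ := hρm.mul (by rw [hE]; fun_prop)
  have hψ0 : ∀ x, 0 ≤ ψ x := fun x => mul_nonneg (hρ0 x) (by positivity)
  -- integrals against the reference Gaussian measure are channel integrals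
  have conv : ∀ F : Euc n → ℝ, Measurable F → (∀ x, 0 ≤ F x) → (∃ b, ∀ x, |F x| ≤ b) →
      ∫⁻ x, ENNReal.ofReal (F x * ψ x) ∂ν = C * ENNReal.ofReal (chT μ τ F y) := by
    rintro F hF hF0 ⟨b, hb⟩
    rw [hν, lintegral_map (by fun_prop) (by fun_prop)]
    refine (gam_scale ha0 (k := fun x => ENNReal.ofReal (F x * ψ x)) (by fun_prop)).trans ?_
    congr 1
    have hnn : ∀ x, 0 ≤ F x * gker n τ (x - y) := fun x =>
      mul_nonneg (hF0 x) (gker_pos hτ _).le
    rw [chT, ofReal_integral_eq_lintegral_ofReal (integrable_ker hτ hF hb y)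
      (Eventually.of_forall hnn), hμ, lintegral_withDensity_eq_lintegral_mul _
        hρm.ennreal_ofReal (g := fun x => ENNReal.ofReal (F x * gker n τ (x - y)))
        (hF.mul (continuous_kerSub y).measurable).ennreal_ofReal]
    refine lintegral_congr fun x => ?_
    simp only [Pi.mul_apply]
    rw [← ENNReal.ofReal_mul (Real.exp_pos _).le, ← ENNReal.ofReal_mul (hρ0 x)]
    congr 1
    have e : c0 * Real.exp (E x) * Real.exp (-(a * ‖x‖ ^ 2) / 2) = gker n τ (x - y) := by
      rw [mul_assoc, ← Real.exp_add, gker, ← hc0, hE]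
      congr 2
      ring
    rw [← e, hψ]
    ring
  -- the gain
  have gain : ∀ x x', ψ x ^ (1 - s) * ψ x' ^ s
      ≤ ψ ((1 - s) • x + s • x') * Real.exp (-(τ / 4 * (s * (1 - s)) * ‖x - x'‖ ^ 2)) := by
    intro x x'
    set z := (1 - s) • x + s • x' with hz
    have e1 := quad_split s x x'
    have e2 := quad_split s (x - y) (x' - y)
    rw [show (1 - s) • (x - y) + s • (x' - y) = z - y by rw [hz]; module,
      sub_sub_sub_cancel_right] at e2
    rw [← hz] at e1
    have eE : E x * (1 - s) + E x' * s = E z + -(τ / 4 * (s * (1 - s)) * ‖x - x'‖ ^ 2) := by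
      simp only [hE, ha]
      linear_combination -(τ / 2) * e2 + (τ / 4) * e1
    simp only [hψ]
    rw [Real.mul_rpow (hρ0 x) (by positivity), Real.mul_rpow (hρ0 x') (by positivity),
      mul_mul_mul_comm, Real.mul_rpow hc00.le (Real.exp_pos _).le,
      Real.mul_rpow hc00.le (Real.exp_pos _).le, ← Real.exp_mul, ← Real.exp_mul,
      mul_mul_mul_comm (c0 ^ (1 - s)), ← Real.rpow_add hc00, sub_add_cancel, Real.rpow_one,
      ← Real.exp_add, eE, Real.exp_add, mul_assoc (ρ z), mul_assoc c0]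
    exact mul_le_mul_of_nonneg_right (hρs x x') (by positivity)
  have hpl := pl_lam n hs0 hs1 (Real.sqrt a)⁻¹
    (F := fun x => ENNReal.ofReal (Real.exp (φ x / (1 - s)) * ψ x))
    (G := fun x => ENNReal.ofReal ((fun _ => (1 : ℝ)) x * ψ x))
    (H := fun x => ENNReal.ofReal (Real.exp (Φ x) * ψ x))
    (by fun_prop) (by fun_prop) (by fun_prop) (fun x x' => by
      simp only [one_mul]
      rw [ENNReal.ofReal_rpow_of_nonneg (mul_nonneg (Real.exp_pos _).le (hψ0 x)) hs1'.le,
        ENNReal.ofReal_rpow_of_nonneg (hψ0 x') hs0.le,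
        ← ENNReal.ofReal_mul (Real.rpow_nonneg (mul_nonneg (Real.exp_pos _).le (hψ0 x)) _)]
      refine ENNReal.ofReal_le_ofReal ?_
      rw [Real.mul_rpow (Real.exp_pos _).le (hψ0 x), ← Real.exp_mul, div_mul_cancel₀ _ hs1'.ne',
        mul_assoc]
      calc Real.exp (φ x) * (ψ x ^ (1 - s) * ψ x' ^ s)
          ≤ Real.exp (φ x) * (ψ ((1 - s) • x + s • x') *
              Real.exp (-(τ / 4 * (s * (1 - s)) * ‖x - x'‖ ^ 2))) :=
            mul_le_mul_of_nonneg_left (gain x x') (Real.exp_pos _).le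
        _ = Real.exp (φ x - τ / 4 * (s * (1 - s)) * ‖x - x'‖ ^ 2) *
              ψ ((1 - s) • x + s • x') := by
            rw [Real.exp_sub, Real.exp_neg]; ring
        _ ≤ _ := mul_le_mul_of_nonneg_right (Real.exp_le_exp.2 (h x x')) (hψ0 _))
  rw [← hν, conv _ (by fun_prop) (fun x => (Real.exp_pos _).le) ⟨Real.exp (B / (1 - s)), fun x => by
      rw [abs_of_pos (Real.exp_pos _), Real.exp_le_exp]
      gcongr
      exact (abs_le.1 (hφB x)).2⟩,
    conv _ measurable_const (fun _ => zero_le_one) ⟨1, fun _ => by simp⟩,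
    conv _ (by fun_prop) (fun x => (Real.exp_pos _).le) ⟨Real.exp B', fun x => by
      rw [abs_of_pos (Real.exp_pos _), Real.exp_le_exp]
      exact (abs_le.1 (hΦB x)).2⟩] at hpl
  set TF := chT μ τ (fun x => Real.exp (φ x / (1 - s))) y
  set TH := chT μ τ (fun x => Real.exp (Φ x)) y
  set Z := chT μ τ (fun _ => 1) y
  have hTF : 0 ≤ TF := chT_nonneg hτ (fun x => (Real.exp_pos _).le) y
  have hTH : 0 ≤ TH := chT_nonneg hτ (fun x => (Real.exp_pos _).le) y
  have hZ : 0 < Z := chT_one_pos hτ y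
  rw [ENNReal.mul_rpow_of_nonneg _ _ hs1'.le, ENNReal.mul_rpow_of_nonneg _ _ hs0.le,
    mul_mul_mul_comm, ← ENNReal.rpow_add_of_nonneg _ _ hs1'.le hs0.le, sub_add_cancel,
    ENNReal.rpow_one, ENNReal.mul_le_mul_iff_right hC0 hCt,
    ENNReal.ofReal_rpow_of_nonneg hTF hs1'.le, ENNReal.ofReal_rpow_of_nonneg hZ.le hs0.le,
    ← ENNReal.ofReal_mul (Real.rpow_nonneg hTF _), ENNReal.ofReal_le_ofReal_iff hTH] at hpl
  rw [Real.div_rpow hTF hZ.le, div_le_div_iff₀ (Real.rpow_pos_of_pos hZ _) hZ]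
  calc TF ^ (1 - s) * Z = TF ^ (1 - s) * Z ^ s * Z ^ (1 - s) := by
        rw [mul_assoc, ← Real.rpow_add hZ, add_sub_cancel, Real.rpow_one]
    _ ≤ TH * Z ^ (1 - s) := mul_le_mul_of_nonneg_right hpl (Real.rpow_nonneg hZ.le _)

/-- The posterior measure of the channel. -/
noncomputable def post (μ : Measure (Euc n)) (τ : ℝ) (y : Euc n) : Measure (Euc n) :=
  μ.withDensity fun x => ENNReal.ofReal (gker n τ (x - y) / chT μ τ (fun _ => 1) y)

lemma integral_post (hτ : 0 < τ) (y : Euc n) (F : Euc n → ℝ) :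
    ∫ x, F x ∂(post μ τ y) = chT μ τ F y / chT μ τ (fun _ => 1) y := by
  rw [post, integral_withDensity_eq_integral_toReal_smul
    ((continuous_kerSub y).measurable.div_const _).ennreal_ofReal
    (Eventually.of_forall fun x => ENNReal.ofReal_lt_top),
    show chT μ τ F y = ∫ x, F x * gker n τ (x - y) ∂μ from rfl, ← integral_div]
  refine integral_congr_ae (Eventually.of_forall fun x => ?_)
  simp only [smul_eq_mul]
  rw [ENNReal.toReal_ofReal (div_nonneg (gker_pos hτ _).le (chT_one_pos hτ y).le)]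
  ring

lemma isProbability_post (hτ : 0 < τ) (y : Euc n) : IsProbabilityMeasure (post μ τ y) := by
  have hZ := chT_one_pos (μ := μ) hτ y
  refine ⟨?_⟩
  have hi := integrable_ker (μ := μ) hτ (F := fun _ => (1 : ℝ)) (B := 1) measurable_const
    (fun _ => by simp) y
  simp only [one_mul] at hi
  rw [post, withDensity_apply _ MeasurableSet.univ, Measure.restrict_univ,
    ← ofReal_integral_eq_lintegral_ofReal (hi.div_const _)
      (Eventually.of_forall fun x => div_nonneg (gker_pos hτ _).le hZ.le), integral_div,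
    show (∫ x, gker n τ (x - y) ∂μ) = chT μ τ (fun _ => 1) y by simp [chT],
    div_self hZ.ne', ENNReal.ofReal_one]

lemma integrable_bdd {ν : Measure (Euc n)} [IsFiniteMeasure ν] {F : Euc n → ℝ}
    (hF : Continuous F) {b : ℝ} (hb : ∀ x, |F x| ≤ b) : Integrable F ν :=
  Integrable.of_bound hF.aestronglyMeasurable b (Eventually.of_forall fun x => hb x)

/-- The pointwise inequality behind the first order expansion. -/
lemma point_bound {φ : Euc n → ℝ} (hφ : ContDiff ℝ 1 φ) {B : ℝ} (hφB : ∀ x, |φ x| ≤ B)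
    (hu : UniformContinuous (fderiv ℝ φ)) {δ : ℝ} (hδ : 0 < δ) (hτ : 0 < τ) :
    ∃ s0 : ℝ, 0 < s0 ∧ ∀ s : ℝ, 0 < s → s ≤ s0 → s ≤ 1 / 2 → ∀ x x' : Euc n,
      φ x - τ / 4 * (s * (1 - s)) * ‖x - x'‖ ^ 2
        ≤ φ ((1 - s) • x + s • x')
          + s / (1 - s) * ((‖fderiv ℝ φ ((1 - s) • x + s • x')‖ + δ) ^ 2 / τ) := by
  obtain ⟨η, hη, huη⟩ := Metric.uniformContinuous_iff.1 hu δ hδ
  have hB : 0 ≤ B := (abs_nonneg (φ 0)).trans (hφB 0)
  refine ⟨τ * (η / 2) ^ 2 / (16 * B + 1), by positivity, fun s hs0 hss hs2 x x' => ?_⟩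
  have hs1 : 0 < 1 - s := by linarith
  set z := (1 - s) • x + s • x' with hz
  set d := ‖x - x'‖ with hd
  set G := ‖fderiv ℝ φ z‖ with hG
  have hxz : x - z = s • (x - x') := by rw [hz]; module
  have hxz' : ‖x - z‖ = s * d := by
    rw [hxz, norm_smul, Real.norm_eq_abs, abs_of_pos hs0, hd]
  have hQ : 0 ≤ s / (1 - s) * ((G + δ) ^ 2 / τ) := by positivity
  rcases le_or_gt (s * d) (η / 2) with hcase | hcase
  · have hmem : x ∈ Metric.closedBall z (η / 2) := by
      rw [Metric.mem_closedBall, dist_eq_norm, hxz']; exact hcase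
    have h1 := (convex_closedBall z (η / 2)).norm_image_sub_le_of_norm_fderiv_le'
      (fun w _ => (hφ.differentiable one_ne_zero).differentiableAt) (φ := fderiv ℝ φ z) (C := δ)
      (fun w hw => by
        rw [← dist_eq_norm]
        refine (huη ?_).le
        have := Metric.mem_closedBall.1 hw
        linarith)
      (Metric.mem_closedBall_self (by linarith)) hmem
    have h2 : φ x - φ z ≤ (G + δ) * (s * d) := by
      have h3 := (Real.le_norm_self _).trans h1
      have h4 := (Real.le_norm_self _).trans ((fderiv ℝ φ z).le_opNorm (x - z))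
      rw [hxz'] at h3 h4
      rw [add_mul]
      linarith
    have h5 : (G + δ) * (s * d) - τ / 4 * (s * (1 - s)) * d ^ 2
        ≤ s / (1 - s) * ((G + δ) ^ 2 / τ) := by
      rw [div_mul_div_comm, le_div_iff₀ (by positivity)]
      nlinarith [mul_nonneg hs0.le (sq_nonneg ((G + δ) - τ * (1 - s) * d / 2))]
    linarith
  · rw [le_div_iff₀ (by positivity)] at hss
    have h1 : (η / 2) ^ 2 ≤ (s * d) ^ 2 := by nlinarith
    have h2 : 2 * B ≤ τ / 4 * (s * (1 - s)) * d ^ 2 := by
      have h3 : s * (16 * B + 1) ≤ τ * (s * d) ^ 2 :=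
        hss.trans (mul_le_mul_of_nonneg_left h1 hτ.le)
      have h4 : 16 * B + 1 ≤ τ * (s * d ^ 2) := by
        refine le_of_mul_le_mul_left ?_ hs0
        linarith [h3, show τ * (s * d) ^ 2 = s * (τ * (s * d ^ 2)) by ring]
      have h5 : 0 ≤ τ * (s * d ^ 2) := by positivity
      nlinarith
    have := abs_le.1 (hφB x)
    have := abs_le.1 (hφB z)
    linarith

/-- Modified log-Sobolev inequality for exponentials under the posterior. -/
lemma post_ent_exp (hρm : Measurable ρ) (hρ0 : ∀ x, 0 ≤ ρ x)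
    (hmid : ∀ x y, ρ x * ρ y ≤ ρ ((2 : ℝ)⁻¹ • (x + y)) ^ 2)
    (hμ : μ = volume.withDensity fun x => ENNReal.ofReal (ρ x)) (hτ : 0 < τ) (y : Euc n)
    {φ : Euc n → ℝ} (hφ : ContDiff ℝ 1 φ) {B : ℝ} (hφB : ∀ x, |φ x| ≤ B)
    (hs : HasCompactSupport (fderiv ℝ φ)) :
    (∫ x, φ x * Real.exp (φ x) ∂(post μ τ y))
      - (∫ x, Real.exp (φ x) ∂(post μ τ y)) * Real.log (∫ x, Real.exp (φ x) ∂(post μ τ y))
      ≤ 1 / τ * ∫ x, ‖fderiv ℝ φ x‖ ^ 2 * Real.exp (φ x) ∂(post μ τ y) := by
  haveI := isProbability_post (μ := μ) hτ y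
  set ν := post μ τ y with hν
  have hd : Continuous (fderiv ℝ φ) := hφ.continuous_fderiv one_ne_zero
  have hu : UniformContinuous (fderiv ℝ φ) := hs.uniformContinuous_of_continuous hd
  obtain ⟨G, hG⟩ := hd.bounded_above_of_compact_support hs
  have hG0 : 0 ≤ G := (norm_nonneg _).trans (hG 0)
  have hφc := hφ.continuous
  have hexp : ∀ x, |Real.exp (φ x)| ≤ Real.exp B := fun x => by
    rw [abs_of_pos (Real.exp_pos _), Real.exp_le_exp]; exact (abs_le.1 (hφB x)).2
  have iA : Integrable (fun x => Real.exp (φ x)) ν := integrable_bdd (by fun_prop) hexp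
  have ia : Integrable (fun x => φ x * Real.exp (φ x)) ν :=
    integrable_bdd (by fun_prop) (b := B * Real.exp B) fun x => by
      rw [abs_mul]
      exact mul_le_mul (hφB x) (hexp x) (abs_nonneg _) ((abs_nonneg _).trans (hφB x))
  have iD : Integrable (fun x => ‖fderiv ℝ φ x‖ ^ 2 * Real.exp (φ x)) ν :=
    integrable_bdd (by fun_prop) (b := G ^ 2 * Real.exp B) fun x => by
      rw [abs_mul, abs_of_nonneg (sq_nonneg _)]
      exact mul_le_mul (pow_le_pow_left₀ (norm_nonneg _) (hG x) 2) (hexp x) (abs_nonneg _)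
        (sq_nonneg _)
  set A := ∫ x, Real.exp (φ x) ∂ν with hA
  set a := ∫ x, φ x * Real.exp (φ x) ∂ν with ha
  set D := ∫ x, ‖fderiv ℝ φ x‖ ^ 2 * Real.exp (φ x) ∂ν with hD
  have hA0 : 0 < A := by
    have h := integral_mono (μ := ν) (integrable_const (Real.exp (-B))) iA
      (fun x => Real.exp_le_exp.2 (abs_le.1 (hφB x)).1)
    simp only [integral_const, probReal_univ, one_smul] at h
    exact (Real.exp_pos _).trans_le h
  have main : ∀ δ : ℝ, 0 < δ → a - A * Real.log A ≤ (1 + δ) * (D + δ * A) / τ := by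
    intro δ hδ
    set Q := fun x => (‖fderiv ℝ φ x‖ + δ) ^ 2 / τ with hQdef
    set QB := (G + δ) ^ 2 / τ with hQB
    have hQ0 : ∀ x, 0 ≤ Q x := fun x => by positivity
    have hQle : ∀ x, Q x ≤ QB := fun x =>
      div_le_div_of_nonneg_right (pow_le_pow_left₀ (by positivity) (by linarith [hG x]) 2) hτ.le
    have hQc : Continuous Q := by rw [hQdef]; fun_prop
    have ib : Integrable (fun x => Q x * Real.exp (φ x)) ν :=
      integrable_bdd (by fun_prop) (b := QB * Real.exp B) fun x => by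
        rw [abs_mul, abs_of_nonneg (hQ0 x)]
        exact mul_le_mul (hQle x) (hexp x) (abs_nonneg _) (by positivity)
    have ic : Integrable (fun x => Q x ^ 2 * Real.exp (φ x)) ν :=
      integrable_bdd (by fun_prop) (b := QB ^ 2 * Real.exp B) fun x => by
        rw [abs_mul, abs_of_nonneg (sq_nonneg _)]
        exact mul_le_mul (pow_le_pow_left₀ (hQ0 x) (hQle x) 2) (hexp x) (abs_nonneg _)
          (sq_nonneg _)
    set b := ∫ x, Q x * Real.exp (φ x) ∂ν with hb
    set c := ∫ x, Q x ^ 2 * Real.exp (φ x) ∂ν with hc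
    have hstep : a - A * Real.log A ≤ b := by
      set h := fun ε : ℝ => (A + b * ε + c * ε ^ 2) ^ (1 + ε) with hh
      have hder : HasDerivAt h (b + A * Real.log A) 0 := by
        have h1 : HasDerivAt (fun ε : ℝ => A + b * ε + c * ε ^ 2) b 0 := by
          have u1 := ((hasDerivAt_id' (0 : ℝ)).const_mul b).const_add A
          have u2 := (hasDerivAt_pow 2 (0 : ℝ)).const_mul c
          exact (u1.fun_add u2).congr_deriv (by simp)
        have h2 : HasDerivAt (fun ε : ℝ => 1 + ε) 1 0 := (hasDerivAt_id (0 : ℝ)).const_add 1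
        simpa using h1.rpow h2 (by simpa using hA0)
      have hh0 : h 0 = A := by simp [hh]
      obtain ⟨s0, hs0, hpt⟩ := point_bound (τ := τ) hφ hφB hu hδ hτ
      set sk := fun k : ℕ => ((2 : ℝ)⁻¹) ^ (k + 1) with hsk
      set εk := fun k : ℕ => sk k / (1 - sk k) with hεk
      have hsk0 : ∀ k, 0 < sk k := fun k => by rw [hsk]; positivity
      have hsk2 : ∀ k, sk k ≤ 1 / 2 := fun k => by
        have := pow_le_pow_of_le_one (show (0 : ℝ) ≤ 2⁻¹ by norm_num) (by norm_num)
          (show 1 ≤ k + 1 by omega)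
        simpa [hsk, one_div] using this
      have hskt : Tendsto sk atTop (𝓝 0) :=
        (tendsto_add_atTop_iff_nat 1).2
          (tendsto_pow_atTop_nhds_zero_of_lt_one (by norm_num) (by norm_num))
      have hεt : Tendsto εk atTop (𝓝 0) := by
        simpa [hεk, Pi.div_def] using
          hskt.div (tendsto_const_nhds.sub hskt) (by norm_num : (1 : ℝ) - 0 ≠ 0)
      have hε0 : ∀ k, 0 < εk k := fun k => div_pos (hsk0 k) (by linarith [hsk2 k])
      have hslope : Tendsto (fun k => slope h 0 (εk k)) atTop (𝓝 (b + A * Real.log A)) :=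
        (hasDerivAt_iff_tendsto_slope.1 hder).comp
          (tendsto_nhdsWithin_iff.2 ⟨hεt, Eventually.of_forall fun k => (hε0 k).ne'⟩)
      have hev : ∀ᶠ k in atTop, a ≤ slope h 0 (εk k) := by
        filter_upwards [hskt.eventually (eventually_le_nhds hs0),
          hεt.eventually (eventually_le_nhds (show (0 : ℝ) < 1 / (QB + 1) by positivity))]
          with k hk1 hk2
        set s := sk k with hsdef
        set ε := εk k with hεdef
        have hε : ε = s / (1 - s) := rfl
        have hs1 : s < 1 := by linarith [hsk2 k]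
        have hεp := hε0 k
        have hεQ : ∀ x, ε * Q x ≤ 1 := fun x =>
          calc ε * Q x ≤ 1 / (QB + 1) * (QB + 1) :=
                mul_le_mul hk2 (by linarith [hQle x]) (hQ0 x) (by positivity)
            _ = 1 := by rw [one_div, inv_mul_cancel₀]; positivity
        have hg := post_gain hρm hρ0 hμ hτ y (hsk0 k) hs1 (rho_dyadic hρ0 hmid (k + 1))
          (φ := φ) (Φ := fun x => φ x + ε * Q x) hφc.measurable (by fun_prop) hφB
          (B' := B + 1) (fun x => by
            have := abs_le.1 (hφB x)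
            have := mul_nonneg hεp.le (hQ0 x)
            rw [abs_le]; constructor <;> linarith [hεQ x])
          (hpt s (hsk0 k) hk1 (hsk2 k))
        rw [← integral_post hτ y, ← integral_post hτ y, ← hν] at hg
        have iL : Integrable (fun x => Real.exp (φ x / (1 - s))) ν :=
          integrable_bdd (by fun_prop) (b := Real.exp (B / (1 - s))) fun x => by
            rw [abs_of_pos (Real.exp_pos _), Real.exp_le_exp]
            gcongr
            exact (abs_le.1 (hφB x)).2
        have iR : Integrable (fun x => Real.exp (φ x + ε * Q x)) ν :=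
          integrable_bdd (by fun_prop) (b := Real.exp (B + 1)) fun x => by
            rw [abs_of_pos (Real.exp_pos _), Real.exp_le_exp]
            linarith [(abs_le.1 (hφB x)).2, hεQ x]
        set L := ∫ x, Real.exp (φ x / (1 - s)) ∂ν
        set R := ∫ x, Real.exp (φ x + ε * Q x) ∂ν
        have hR : R ≤ A + b * ε + c * ε ^ 2 := by
          refine (integral_mono iR ((iA.add (ib.mul_const ε)).add (ic.mul_const (ε ^ 2)))
            (fun x => ?_)).trans (le_of_eq ?_)
          · have h1 := (abs_le.1 (Real.abs_exp_sub_one_sub_id_le (x := ε * Q x)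
              (by rw [abs_of_nonneg (mul_nonneg hεp.le (hQ0 x))]; exact hεQ x))).2
            simp only [Pi.add_apply]
            rw [Real.exp_add]
            nlinarith [Real.exp_pos (φ x)]
          · simp only [Pi.add_apply]
            have e1 : Integrable (fun x => Real.exp (φ x) + Q x * Real.exp (φ x) * ε) ν :=
              iA.add (ib.mul_const ε)
            rw [integral_add e1 (ic.mul_const (ε ^ 2)),
              integral_add iA (ib.mul_const ε), integral_mul_const, integral_mul_const]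
        have hL : A + a * ε ≤ L := by
          refine le_trans (le_of_eq ?_) (integral_mono (iA.add (ia.mul_const ε)) iL fun x => ?_)
          · simp only [Pi.add_apply]
            rw [integral_add iA (ia.mul_const ε), integral_mul_const]
          · simp only [Pi.add_apply]
            have e : φ x / (1 - s) = φ x + φ x * ε := by
              rw [hε]; field_simp [show (1 : ℝ) - s ≠ 0 by linarith]; ring
            rw [e, Real.exp_add]
            nlinarith [Real.exp_pos (φ x), Real.add_one_le_exp (φ x * ε)]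
        have hL0 : 0 ≤ L := integral_nonneg fun x => (Real.exp_pos _).le
        have h3 : L ≤ (A + b * ε + c * ε ^ 2) ^ (1 + ε) := by
          have e : (1 - s) * (1 + ε) = 1 := by
            rw [hε]; field_simp [show (1 : ℝ) - s ≠ 0 by linarith]; ring
          have := Real.rpow_le_rpow (Real.rpow_nonneg hL0 _) (hg.trans hR)
            (show 0 ≤ 1 + ε by linarith)
          rwa [← Real.rpow_mul hL0, e, Real.rpow_one] at this
        rw [slope_def_field, hh0, sub_zero, le_div_iff₀ hεp]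
        simp only [hh]
        linarith
      linarith [ge_of_tendsto hslope hev]
    refine hstep.trans ?_
    refine (integral_mono ib (((iD.add (iA.const_mul δ)).const_mul (1 + δ)).div_const τ)
      fun x => ?_).trans (le_of_eq ?_)
    · simp only [hQdef, Pi.add_apply]
      rw [div_mul_eq_mul_div]
      refine div_le_div_of_nonneg_right ?_ hτ.le
      rw [show (1 + δ) * (‖fderiv ℝ φ x‖ ^ 2 * Real.exp (φ x) + δ * Real.exp (φ x))
        = (1 + δ) * (‖fderiv ℝ φ x‖ ^ 2 + δ) * Real.exp (φ x) by ring]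
      refine mul_le_mul_of_nonneg_right ?_ (Real.exp_pos _).le
      nlinarith [mul_nonneg hδ.le (sq_nonneg (‖fderiv ℝ φ x‖ - 1))]
    · simp only [Pi.add_apply]
      rw [integral_div, integral_const_mul, integral_add iD (iA.const_mul δ), integral_const_mul]
  have hlim : Tendsto (fun δ : ℝ => (1 + δ) * (D + δ * A) / τ) (𝓝[>] 0) (𝓝 (1 / τ * D)) := by
    refine Tendsto.mono_left ?_ nhdsWithin_le_nhds
    have hc : Continuous fun δ : ℝ => (1 + δ) * (D + δ * A) / τ := by fun_prop
    simpa [div_eq_inv_mul] using hc.tendsto 0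
  exact ge_of_tendsto hlim (eventually_nhdsWithin_of_forall fun δ hδ => main δ hδ)

/-- Log-Sobolev inequality for the posterior. -/
theorem posterior_lsi {n : ℕ} {ρ : Euc n → ℝ} (hρm : Measurable ρ) (hρ0 : ∀ x, 0 ≤ ρ x)
    (hmid : ∀ x y, ρ x * ρ y ≤ ρ ((2 : ℝ)⁻¹ • (x + y)) ^ 2)
    {μ : Measure (Euc n)} [IsProbabilityMeasure μ]
    (hμ : μ = volume.withDensity fun x => ENNReal.ofReal (ρ x))
    {τ : ℝ} (hτ : 0 < τ) {g : Euc n → ℝ} (hg : ContDiff ℝ 1 g) {M : ℝ} (hgM : ∀ x, |g x| ≤ M)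
    (hgs : HasCompactSupport (fderiv ℝ g)) (y : Euc n) :
    chT μ τ (fun x => g x ^ 2 * Real.log (g x ^ 2)) y
      - chT μ τ (fun x => g x ^ 2) y
          * Real.log (chT μ τ (fun x => g x ^ 2) y / chT μ τ (fun _ => 1) y)
    ≤ chT μ τ (fun x => 4 / τ * ‖fderiv ℝ g x‖ ^ 2) y := by
  haveI := isProbability_post (μ := μ) hτ y
  set ν := post μ τ y with hν
  have hd : Continuous (fderiv ℝ g) := hg.continuous_fderiv one_ne_zero
  obtain ⟨G, hG⟩ := hd.bounded_above_of_compact_support hgs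
  have hgc := hg.continuous
  have hg2 : ∀ x, g x ^ 2 ≤ M ^ 2 := fun x => sq_le_sq' (abs_le.1 (hgM x)).1 (abs_le.1 (hgM x)).2
  have iG : Integrable (fun x => ‖fderiv ℝ g x‖ ^ 2) ν :=
    integrable_bdd (by fun_prop) (b := G ^ 2) fun x => by
      rw [abs_of_nonneg (sq_nonneg _)]; exact pow_le_pow_left₀ (norm_nonneg _) (hG x) 2
  have i2 : Integrable (fun x => g x ^ 2) ν :=
    integrable_bdd (by fun_prop) (b := M ^ 2) fun x => by
      rw [abs_of_nonneg (sq_nonneg _)]; exact hg2 x
  set A := ∫ x, g x ^ 2 ∂ν with hA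
  set W := ∫ x, ‖fderiv ℝ g x‖ ^ 2 ∂ν with hW
  have step : ∀ η : ℝ, 0 < η →
      (∫ x, (g x ^ 2 + η) * Real.log (g x ^ 2 + η) ∂ν) - (A + η) * Real.log (A + η)
        ≤ 4 / τ * W := by
    intro η hη
    have hpos : ∀ x, 0 < g x ^ 2 + η := fun x => by positivity
    set φ := fun x => Real.log (g x ^ 2 + η) with hφdef
    have hφ : ContDiff ℝ 1 φ :=
      ((hg.pow 2).add contDiff_const).log fun x => (hpos x).ne'
    have hexp : ∀ x, Real.exp (φ x) = g x ^ 2 + η := fun x => Real.exp_log (hpos x)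
    have hder : ∀ x, fderiv ℝ φ x = (2 * g x / (g x ^ 2 + η)) • fderiv ℝ g x := by
      intro x
      have h1 := ((hg.differentiable one_ne_zero x).hasFDerivAt.pow 2).add_const η
      rw [(h1.log (hpos x).ne').fderiv, smul_smul]
      congr 1
      simp
      ring
    have hs : HasCompactSupport (fderiv ℝ φ) :=
      hgs.mono fun x hx => by
        simp only [Function.mem_support, hder] at hx ⊢
        exact fun h => hx (by rw [h, smul_zero])
    have hB : ∀ x, |φ x| ≤ max |Real.log η| |Real.log (M ^ 2 + η)| := fun x =>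
      abs_le_max_abs_abs (Real.log_le_log hη (by linarith [sq_nonneg (g x)]))
        (Real.log_le_log (hpos x) (by linarith [hg2 x]))
    have h := post_ent_exp hρm hρ0 hmid hμ hτ y hφ hB hs
    simp only [hexp] at h
    have e1 : ∫ x, g x ^ 2 + η ∂ν = A + η := by
      rw [integral_add i2 (integrable_const η), integral_const, probReal_univ, one_smul]
    rw [e1] at h
    have h2 : ∫ x, ‖fderiv ℝ φ x‖ ^ 2 * (g x ^ 2 + η) ∂ν ≤ 4 * W := by
      rw [hW, ← integral_const_mul]
      refine integral_mono_of_nonneg (Eventually.of_forall fun x =>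
        mul_nonneg (sq_nonneg _) (hpos x).le) (iG.const_mul 4) (Eventually.of_forall fun x => ?_)
      show ‖fderiv ℝ φ x‖ ^ 2 * (g x ^ 2 + η) ≤ 4 * ‖fderiv ℝ g x‖ ^ 2
      rw [hder, norm_smul, mul_pow, Real.norm_eq_abs, sq_abs, div_pow,
        show (2 * g x) ^ 2 / (g x ^ 2 + η) ^ 2 * ‖fderiv ℝ g x‖ ^ 2 * (g x ^ 2 + η)
          = 4 * ‖fderiv ℝ g x‖ ^ 2 * (g x ^ 2 / (g x ^ 2 + η)) by
            field_simp [(hpos x).ne']; ring]
      exact mul_le_of_le_one_right (by positivity)
        ((div_le_one (hpos x)).2 (by linarith))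
    have e2 : ∫ x, φ x * (g x ^ 2 + η) ∂ν = ∫ x, (g x ^ 2 + η) * Real.log (g x ^ 2 + η) ∂ν :=
      integral_congr_ae (Eventually.of_forall fun x => mul_comm _ _)
    rw [e2] at h
    refine h.trans ?_
    rw [show 4 / τ * W = 1 / τ * (4 * W) by ring]
    exact mul_le_mul_of_nonneg_left h2 (by positivity)
  -- let the regularisation go to zero
  obtain ⟨C, hC⟩ := (isCompact_Icc (a := (0 : ℝ)) (b := M ^ 2 + 1)).exists_bound_of_continuousOn
    Real.continuous_mul_log.continuousOn
  set ηk := fun k : ℕ => 1 / ((k : ℝ) + 1) with hηk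
  have hη0 : ∀ k, 0 < ηk k := fun k => by rw [hηk]; positivity
  have hη1 : ∀ k, ηk k ≤ 1 := fun k => by
    rw [hηk]; exact (div_le_one (by positivity)).2 (by linarith [(Nat.cast_nonneg k : (0 : ℝ) ≤ k)])
  have hηt : Tendsto ηk atTop (𝓝 0) := tendsto_one_div_add_atTop_nhds_zero_nat
  have t1 : Tendsto (fun k => ∫ x, (g x ^ 2 + ηk k) * Real.log (g x ^ 2 + ηk k) ∂ν) atTop
      (𝓝 (∫ x, g x ^ 2 * Real.log (g x ^ 2) ∂ν)) := by
    refine tendsto_integral_of_dominated_convergence (fun _ => C)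
      (fun k => (Real.continuous_mul_log.comp
        (f := fun x => g x ^ 2 + ηk k) (by fun_prop)).aestronglyMeasurable)
      (integrable_const C) (fun k => Eventually.of_forall fun x => ?_)
      (Eventually.of_forall fun x => ?_)
    · exact hC _ ⟨by linarith [sq_nonneg (g x), hη0 k], by linarith [hg2 x, hη1 k]⟩
    · have := (Real.continuous_mul_log.tendsto (g x ^ 2 + 0)).comp
        (tendsto_const_nhds.add hηt)
      simpa [Function.comp_def] using this
  have t2 : Tendsto (fun k => (A + ηk k) * Real.log (A + ηk k)) atTop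
      (𝓝 (A * Real.log A)) := by
    have := (Real.continuous_mul_log.tendsto (A + 0)).comp (tendsto_const_nhds.add hηt)
    simpa [Function.comp_def] using this
  have hfin : (∫ x, g x ^ 2 * Real.log (g x ^ 2) ∂ν) - A * Real.log A ≤ 4 / τ * W :=
    le_of_tendsto (t1.sub t2) (Eventually.of_forall fun k => step _ (hη0 k))
  set Z := chT μ τ (fun _ => 1) y with hZdef
  have hZ : 0 < Z := chT_one_pos hτ y
  rw [hA, hW, ← integral_const_mul, hν, integral_post hτ y, integral_post hτ y,
    integral_post hτ y, ← hZdef] at hfin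
  have := mul_le_mul_of_nonneg_left hfin hZ.le
  rw [mul_sub, mul_div_cancel₀ _ hZ.ne', ← mul_assoc, mul_div_cancel₀ _ hZ.ne',
    mul_div_cancel₀ _ hZ.ne'] at this
  exact this

end Vale.Agent.P245.LSI
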