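import Mathlib
import Vale.Agent.P245.LSI.Posterior
import Vale.Agent.P245.LSI.Main

open MeasureTheory Filter Set
open scoped RealInnerProductSpace ENNReal

namespace Vale.Agent.P245.LSI

lemma postAll_of_midLC {n : ℕ} {ρ : Euc n → ℝ} (hρm : Measurable ρ) (hρ0 : ∀ x, 0 ≤ ρ x)
    (hmid : ∀ x y, ρ x * ρ y ≤ ρ ((2 : ℝ)⁻¹ • (x + y)) ^ 2)
    {μ : Measure (Euc n)} [IsProbabilityMeasure μ]
    (hμ : μ = volume.withDensity fun x => ENNReal.ofReal (ρ x)) {τ : ℝ} (hτ : 0 < τ) :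
    PostAll μ τ := fun g hg y => by
  obtain ⟨M, hM⟩ := hg.bdd
  exact posterior_lsi hρm hρ0 hmid hμ hτ hg.smooth hM hg.supp y

end Vale.Agent.P245.LSI
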